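import Vale.Agent.P271A.Defs
import Vale.Agent.P271.Defs

/-! P271A: weights on the polarised manifold and the cyclic cover. -/

open MeasureTheory Filter Topology Set
open scoped ContDiff ENNReal ComplexConjugate

noncomputable section

namespace Vale.Agent.P271A

open Vale.Agent.P271

variable {n : ℕ} {X : Type} [TopologicalSpace X]

/-- The curvature of the metric `ψ` on the real multiple `l L`. -/
def Lv {A : Atl n X} (P : Pol A) (ψ : X → ℝ) (l : ℝ) (a : A.ι) (p : X) (ξ : Cn n) : ℝ :=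
  Lev (A.loc a fun q => ψ q + l * Real.log (‖P.u a q‖ ^ 2)) (A.e a p) ξ

/-- The antiholomorphic derivative of a real function in a chart. -/
def Db (A : Atl n X) (f : X → ℝ) (a : A.ι) (p : X) (ξ : Cn n) : ℂ :=
  dzb ξ (A.loc a fun q => (f q : ℂ)) (A.e a p)

/-- Sums of squares of norms of sections of `J k0 L`. -/
def SQ {A : Atl n X} (P : Pol A) (J : ℕ) (Q : X → ℝ) : Prop :=
  ∃ (L : ℕ) (f : Fin L → X → ℂ), (∀ l, f l ∈ A.H0 (P.u ^ (J * P.k0))) ∧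
    ∀ p, Q p = ∑ l, ‖f l p‖ ^ 2

/-- The family of weights used with the log-concavity theorem. -/
def famW {I : Type} [Fintype I] (N : ℕ) (Q : I → X → ℝ) (α : I → ℝ) (p : X) : ℝ :=
  N * ∑ i, Real.log (1 + Q i p * Real.exp (α i))

/-- The curvature of `ψ` on `u` is nonnegative and controls the antiholomorphic derivative
of `w`. -/
def Ctl [MeasurableSpace X] (M : Model n X) (u : M.ι → X → ℂ) (ψ : X → ℝ) (w : X → ℂ)
    (θ : X → ℝ) : Prop :=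
  ∀ p, ∃ a, p ∈ (M.e a).source ∧ ∀ ξ, 0 ≤ Lev (M.wt u ψ a) (M.e a p) ξ ∧
    ‖dzb ξ (M.loc a fun q => (M.k * u) a q * w q) (M.e a p)‖ ^ 2 ≤
      θ p * ‖(M.k * u) a p‖ ^ 2 * Lev (M.wt u ψ a) (M.e a p) ξ

/-- The cyclic cover of the open set `O` obtained by extracting a `k`-th root of `σ`. -/
structure Kum (A : Atl n X) (u : A.ι → X → ℂ) (k : ℕ) (σ : X → ℂ) (O : Set X) where
  Y : Type
  [top : TopologicalSpace Y]
  [t2 : T2Space Y]
  [sc : SecondCountableTopology Y]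
  π : Y → X
  lh : IsLocalHomeomorph π
  range_π : range π = O
  t : Y → ℂ
  t_pow : ∀ q, t q ^ k = σ (π q)
  t_ne : ∀ q, t q ≠ 0
  cont : ∀ a, ContinuousOn (fun q => u a (π q) * t q) (π ⁻¹' (A.e a).source)
  τ : Y ≃ₜ Y
  π_τ : ∀ q, π (τ q) = π q
  τ_per : ∀ q, τ^[k] q = q
  fiber : ∀ q q', π q = π q' → ∃ i < k, q' = τ^[i] q
  free : ∀ q, ∀ i < k, ∀ j < k, τ^[i] q = τ^[j] q → i = j
  proper : ∀ K, IsCompact K → K ⊆ O → IsCompact (π ⁻¹' K)

attribute [instance] Kum.top Kum.t2 Kum.sc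

/-- A pseudoconvex Riemann domain covering the complement of a divisor. -/
structure Cov [MeasurableSpace X] (M : Model n X) (P : Pol M.toAtl) where
  Y : Type
  [top : TopologicalSpace Y]
  [t2 : T2Space Y]
  [sc : SecondCountableTopology Y]
  [ms : MeasurableSpace Y]
  [bs : BorelSpace Y]
  D : RD n Y
  π : Y → X
  lh : IsLocalHomeomorph π
  G : M.ι → X → ℂ
  hG : M.IsGauge G
  Z : X → ℂ
  hZ : Z ∈ M.H0 G
  Z_ne : Z ≠ 0
  range_π : range π = {p | Z p ≠ 0}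
  τ : Y ≃ₜ Y
  π_τ : ∀ q, π (τ q) = π q
  τ_per : ∀ q, τ^[P.k0] q = q
  fiber : ∀ q q', π q = π q' → ∃ i < P.k0, q' = τ^[i] q
  free : ∀ q, ∀ i < P.k0, ∀ j < P.k0, τ^[i] q = τ^[j] q → i = j
  pr0 : X → Cn n
  hpr : ∀ q, D.pr q = pr0 (π q)
  Ω : X → ℂ
  Ω_ne : ∀ q, Ω (π q) ≠ 0
  Ω_meas : Measurable fun p => ‖Ω p‖
  pr0_an : ∀ a q, π q ∈ (M.e a).source → AnalyticAt ℂ (M.loc a pr0) (M.e a (π q))
  Ω_det : ∀ a q, π q ∈ (M.e a).source →
    M.k a (π q) * Ω (π q) = (fderiv ℂ (M.loc a pr0) (M.e a (π q))).det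
  T_an : ∀ a q, π q ∈ (M.e a).source →
    AnalyticAt ℂ (fun z => M.e a (π (D.sec q z))) (D.pr q)
  Ω_an : ∀ a q, π q ∈ (M.e a).source →
    AnalyticAt ℂ (fun z => M.k a (π (D.sec q z)) * Ω (π (D.sec q z))) (D.pr q)
  t : Y → ℂ
  t_ne : ∀ q, t q ≠ 0
  t_an : ∀ a q, π q ∈ (M.e a).source →
    AnalyticAt ℂ (fun z => P.u a (π (D.sec q z)) * t (D.sec q z)) (D.pr q)
  ρ : Y → ℝ
  ρ_sm : D.SmR ρ
  ρ_cpt : ∀ c, IsCompact {q | ρ q ≤ c}
  ρ_psh : ∀ q v, 0 ≤ D.levi ρ q v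

attribute [instance] Cov.top Cov.t2 Cov.sc Cov.ms Cov.bs

/-- A holomorphic frame on the cover of the pull back of the bundle `F`. -/
structure Cov.Frame [MeasurableSpace X] {M : Model n X} {P : Pol M.toAtl} (C : Cov M P)
    (F : M.ι → X → ℂ) (e : C.Y → ℂ) : Prop where
  ne : ∀ q, e q ≠ 0
  an : ∀ a q, C.π q ∈ (M.e a).source →
    AnalyticAt ℂ (fun z => F a (C.π (C.D.sec q z)) * e (C.D.sec q z)) (C.D.pr q)

end Vale.Agent.P271A
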