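import Vale.Agent.P271A.Basic
import Vale.Agent.P271A.XDefs

/-! P271A: local Wirtinger calculus on affine space. -/

open MeasureTheory Filter Topology Set
open scoped ContDiff ENNReal ComplexConjugate

noncomputable section

namespace Vale.Agent.P271A

open Vale.Agent.P271

variable {n : ℕ} {F G : Cn n → ℂ} {Φ Ψ : Cn n → ℝ} {z ξ : Cn n}

theorem Brid_L_smul (L : Cn n →L[ℝ] ℂ) (c : ℂ) (ξ : Cn n) :
    L (c • ξ) = c.re * L ξ + c.im * L (Complex.I • ξ) := by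
  have h : c • ξ = c.re • ξ + c.im • (Complex.I • ξ) := by
    ext i
    simp only [Pi.smul_apply, Pi.add_apply, smul_eq_mul, Complex.real_smul]
    linear_combination (-ξ i) * Complex.re_add_im c
  rw [h, map_add, map_smul, map_smul, Complex.real_smul, Complex.real_smul]

theorem Brid_dz_smul (c : ℂ) : dz (c • ξ) F z = c * dz ξ F z := by
  unfold dz
  rw [smul_smul, Brid_L_smul _ c, Brid_L_smul _ (Complex.I * c)]
  simp only [Complex.mul_re, Complex.mul_im, Complex.I_re, Complex.I_im, zero_mul, one_mul,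
    zero_sub, zero_add, Complex.ofReal_neg]
  linear_combination (fderiv ℝ F z ξ - Complex.I * fderiv ℝ F z (Complex.I • ξ)) / 2 *
    Complex.re_add_im c + (c.im * fderiv ℝ F z (Complex.I • ξ) / 2) * Complex.I_mul_I

theorem Brid_dzb_smul (c : ℂ) : dzb (c • ξ) F z = conj c * dzb ξ F z := by
  unfold dzb
  have hc : (c.re : ℂ) - c.im * Complex.I = conj c := by
    apply Complex.ext <;> simp
  rw [smul_smul, Brid_L_smul _ c, Brid_L_smul _ (Complex.I * c)]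
  simp only [Complex.mul_re, Complex.mul_im, Complex.I_re, Complex.I_im, zero_mul, one_mul,
    zero_sub, zero_add, Complex.ofReal_neg]
  linear_combination (fderiv ℝ F z ξ + Complex.I * fderiv ℝ F z (Complex.I • ξ)) / 2 *
    hc + (c.im * fderiv ℝ F z (Complex.I • ξ) / 2) * Complex.I_mul_I

theorem Brid_dz_vsum {ι : Type*} (s : Finset ι) (v : ι → Cn n) :
    dz (∑ i ∈ s, v i) F z = ∑ i ∈ s, dz (v i) F z := by
  simp only [dz, Finset.smul_sum, map_sum, Finset.mul_sum, ← Finset.sum_sub_distrib,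
    Finset.sum_div]

theorem Brid_dzb_vsum {ι : Type*} (s : Finset ι) (v : ι → Cn n) :
    dzb (∑ i ∈ s, v i) F z = ∑ i ∈ s, dzb (v i) F z := by
  simp only [dzb, Finset.smul_sum, map_sum, Finset.mul_sum, ← Finset.sum_add_distrib,
    Finset.sum_div]

theorem Brid_single (j : Fin n) (c : ℂ) :
    (Pi.single j c : Cn n) = c • (Pi.single j 1 : Cn n) := by
  rw [← Pi.single_smul, smul_eq_mul, mul_one]

theorem Brid_zv (j : Fin n) : eX (zv j) F z = dz (Pi.single j 1) F z := by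
  unfold eX zv dz
  simp only
  rw [Brid_single j (1 / 2), Brid_single j (-Complex.I / 2), Brid_L_smul _ (1 / 2),
    Brid_L_smul _ (-Complex.I / 2)]
  have h1 : (1 / 2 : ℂ).re = 1 / 2 := by norm_num
  have h2 : (1 / 2 : ℂ).im = 0 := by norm_num
  have h3 : (-Complex.I / 2 : ℂ).re = 0 := by norm_num
  have h4 : (-Complex.I / 2 : ℂ).im = -1 / 2 := by norm_num
  rw [h1, h2, h3, h4]
  push_cast
  ring

theorem Brid_bv (j : Fin n) : eX (bv j) F z = dzb (Pi.single j 1) F z := by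
  unfold eX bv dzb
  simp only
  rw [Brid_single j (1 / 2), Brid_single j (Complex.I / 2), Brid_L_smul _ (1 / 2),
    Brid_L_smul _ (Complex.I / 2)]
  have h1 : (1 / 2 : ℂ).re = 1 / 2 := by norm_num
  have h2 : (1 / 2 : ℂ).im = 0 := by norm_num
  have h3 : (Complex.I / 2 : ℂ).re = 0 := by norm_num
  have h4 : (Complex.I / 2 : ℂ).im = 1 / 2 := by norm_num
  rw [h1, h2, h3, h4]
  push_cast
  ring

theorem Brid_expand (ξ : Cn n) : ξ = ∑ j, ξ j • (Pi.single j 1 : Cn n) := by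
  simp only [← Brid_single]
  exact (Finset.univ_sum_single ξ).symm

theorem Brid_ofReal (hΦ : ContDiffAt ℝ ∞ Φ z) : ContDiffAt ℝ ∞ (fun w => (Φ w : ℂ)) z :=
  Complex.ofRealCLM.contDiff.contDiffAt.comp z hΦ

theorem Brid_ofReal_diff (hΦ : DifferentiableAt ℝ Φ z) :
    DifferentiableAt ℝ (fun w => (Φ w : ℂ)) z :=
  Complex.ofRealCLM.differentiableAt.comp z hΦ

theorem Brid_conj_diff (hF : DifferentiableAt ℝ F z) :
    DifferentiableAt ℝ (fun w => conj (F w)) z :=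
  Complex.conjCLE.differentiableAt.comp z hF

theorem Brid_ev {V : Type} [NormedAddCommGroup V] [NormedSpace ℝ V] {H : Cn n → V}
    (h : ContDiffAt ℝ ∞ H z) : ∀ᶠ w in 𝓝 z, DifferentiableAt ℝ H w :=
  ((h.of_le (m := 1) (by simp)).eventually (by simp)).mono fun _ hw =>
    hw.differentiableAt (by simp)

theorem Brid_contDiffAt_dzb (h : ContDiffAt ℝ ∞ F z) : ContDiffAt ℝ ∞ (dzb ξ F) z := by
  have h1 : ContDiffAt ℝ ∞ (fderiv ℝ F) z := h.fderiv_right (m := ∞) (by simp)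
  exact ((h1.clm_apply contDiffAt_const).add
    (contDiffAt_const.mul (h1.clm_apply contDiffAt_const))).div_const 2

theorem Brid_dzb_diff (h : ContDiffAt ℝ ∞ Φ z) :
    DifferentiableAt ℝ (dzb ξ fun w => (Φ w : ℂ)) z :=
  (Brid_contDiffAt_dzb (Brid_ofReal h)).differentiableAt (by simp)

theorem Brid_dz_sum {ι : Type*} (s : Finset ι) {H : ι → Cn n → ℂ}
    (hH : ∀ i ∈ s, DifferentiableAt ℝ (H i) z) :
    dz ξ (fun w => ∑ i ∈ s, H i w) z = ∑ i ∈ s, dz ξ (H i) z := by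
  simp only [dz, fderiv_fun_sum hH, sum_apply, Finset.mul_sum,
    ← Finset.sum_sub_distrib, Finset.sum_div]

theorem Brid_dz_mul_const (hF : DifferentiableAt ℝ F z) (c : ℂ) :
    dz ξ (fun w => F w * c) z = dz ξ F z * c := by
  simp only [dz, fderiv_mul_const hF, smul_apply, smul_eq_mul]
  ring

theorem dz_eq_sum (F : Cn n → ℂ) (z ξ : Cn n) : dz ξ F z = ∑ j, eX (zv j) F z * ξ j := by
  conv_lhs => rw [Brid_expand ξ]
  rw [Brid_dz_vsum]
  exact Finset.sum_congr rfl fun j _ => by rw [Brid_dz_smul, Brid_zv, mul_comm]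

theorem dzb_eq_sum (F : Cn n → ℂ) (z ξ : Cn n) :
    dzb ξ F z = ∑ j, eX (bv j) F z * conj (ξ j) := by
  conv_lhs => rw [Brid_expand ξ]
  rw [Brid_dzb_vsum]
  exact Finset.sum_congr rfl fun j _ => by rw [Brid_dzb_smul, Brid_bv, mul_comm]

theorem Lev_eq_sum (hΦ : ContDiffAt ℝ ∞ Φ z) : Lev Φ z ξ =
    (∑ j, ∑ k, eX (zv j) (eX (bv k) fun w => (Φ w : ℂ)) z * ξ j * conj (ξ k)).re := by
  have hd : ∀ k, DifferentiableAt ℝ (eX (bv k) fun w => (Φ w : ℂ)) z := fun k =>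
    (contDiffAt_eX (Brid_ofReal hΦ)).differentiableAt (by simp)
  have e : (dzb ξ fun w => (Φ w : ℂ)) =
      fun x => ∑ k, eX (bv k) (fun w => (Φ w : ℂ)) x * conj (ξ k) :=
    funext fun x => dzb_eq_sum _ x ξ
  unfold Lev lev
  rw [e, Brid_dz_sum _ fun k _ => (hd k).mul_const _, Finset.sum_comm]
  refine congrArg Complex.re (Finset.sum_congr rfl fun k _ => ?_)
  rw [Brid_dz_mul_const (hd k), dz_eq_sum, Finset.sum_mul]

theorem dz_congr (h : F =ᶠ[𝓝 z] G) : dz ξ F z = dz ξ G z := by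
  simp only [dz, h.fderiv_eq]

theorem dzb_congr (h : F =ᶠ[𝓝 z] G) : dzb ξ F z = dzb ξ G z := by
  simp only [dzb, h.fderiv_eq]

theorem Lev_congr (h : Φ =ᶠ[𝓝 z] Ψ) : Lev Φ z ξ = Lev Ψ z ξ := by
  have h1 : (fun w => (Φ w : ℂ)) =ᶠ[𝓝 z] fun w => (Ψ w : ℂ) :=
    h.mono fun w hw => congrArg _ hw
  unfold Lev lev
  rw [dz_congr (h1.eventually_nhds.mono fun w hw => dzb_congr hw)]

theorem dz_const (c : ℂ) : dz ξ (fun _ => c) z = 0 := by
  simp [dz]

theorem dzb_const (c : ℂ) : dzb ξ (fun _ => c) z = 0 := by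
  simp [dzb]

theorem dz_add (hF : DifferentiableAt ℝ F z) (hG : DifferentiableAt ℝ G z) :
    dz ξ (fun w => F w + G w) z = dz ξ F z + dz ξ G z := by
  simp only [dz, fderiv_fun_add hF hG, add_apply]
  ring

theorem dzb_add (hF : DifferentiableAt ℝ F z) (hG : DifferentiableAt ℝ G z) :
    dzb ξ (fun w => F w + G w) z = dzb ξ F z + dzb ξ G z := by
  simp only [dzb, fderiv_fun_add hF hG, add_apply]
  ring

theorem dz_mul (hF : DifferentiableAt ℝ F z) (hG : DifferentiableAt ℝ G z) :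
    dz ξ (fun w => F w * G w) z = dz ξ F z * G z + F z * dz ξ G z := by
  simp only [dz, fderiv_fun_mul hF hG, add_apply,
    smul_apply, smul_eq_mul]
  ring

theorem dzb_mul (hF : DifferentiableAt ℝ F z) (hG : DifferentiableAt ℝ G z) :
    dzb ξ (fun w => F w * G w) z = dzb ξ F z * G z + F z * dzb ξ G z := by
  simp only [dzb, fderiv_fun_mul hF hG, add_apply,
    smul_apply, smul_eq_mul]
  ring

theorem dzb_sum {ι : Type*} (s : Finset ι) {H : ι → Cn n → ℂ}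
    (hH : ∀ i ∈ s, DifferentiableAt ℝ (H i) z) :
    dzb ξ (fun w => ∑ i ∈ s, H i w) z = ∑ i ∈ s, dzb ξ (H i) z := by
  simp only [dzb, fderiv_fun_sum hH, sum_apply, Finset.mul_sum,
    ← Finset.sum_add_distrib, Finset.sum_div]

theorem dz_sum {ι : Type*} (s : Finset ι) {H : ι → Cn n → ℂ}
    (hH : ∀ i ∈ s, DifferentiableAt ℝ (H i) z) :
    dz ξ (fun w => ∑ i ∈ s, H i w) z = ∑ i ∈ s, dz ξ (H i) z := by
  exact Brid_dz_sum s hH

theorem dzb_hol (hF : DifferentiableAt ℂ F z) : dzb ξ F z = 0 := by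
  simp only [dzb, hF.fderiv_restrictScalars ℝ, ContinuousLinearMap.coe_restrictScalars', map_smul,
    smul_eq_mul]
  linear_combination (fderiv ℂ F z ξ / 2) * Complex.I_mul_I

theorem dz_hol (hF : DifferentiableAt ℂ F z) : dz ξ F z = fderiv ℂ F z ξ := by
  simp only [dz, hF.fderiv_restrictScalars ℝ, ContinuousLinearMap.coe_restrictScalars', map_smul,
    smul_eq_mul]
  linear_combination (-fderiv ℂ F z ξ / 2) * Complex.I_mul_I

theorem conj_dz (F : Cn n → ℂ) (z ξ : Cn n) :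
    conj (dz ξ F z) = dzb ξ (fun w => conj (F w)) z := by
  have h : fderiv ℝ (fun w => conj (F w)) z =
      (Complex.conjCLE : ℂ →L[ℝ] ℂ).comp (fderiv ℝ F z) := Complex.conjCLE.comp_fderiv
  have h2 : conj (2 : ℂ) = 2 := Complex.conj_ofNat 2
  simp [dz, dzb, h, h2]

theorem conj_dz_real (Φ : Cn n → ℝ) (z ξ : Cn n) :
    conj (dz ξ (fun w => (Φ w : ℂ)) z) = dzb ξ (fun w => (Φ w : ℂ)) z := by
  simp only [conj_dz, Complex.conj_ofReal]

theorem norm_dzb_real (Φ : Cn n → ℝ) (z ξ : Cn n) :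
    ‖dzb ξ (fun w => (Φ w : ℂ)) z‖ = ‖dz ξ (fun w => (Φ w : ℂ)) z‖ := by
  rw [← conj_dz_real, Complex.norm_conj]

theorem dzb_smul (c : ℂ) : dzb (c • ξ) F z = conj c * dzb ξ F z := by
  exact Brid_dzb_smul c

theorem Brid_conj_dzb (F : Cn n → ℂ) (z ξ : Cn n) :
    conj (dzb ξ F z) = dz ξ (fun w => conj (F w)) z := by
  have h := conj_dz (fun w => conj (F w)) z ξ
  simp only [Complex.conj_conj] at h
  rw [← h, Complex.conj_conj]

theorem Brid_dz_conj_hol (hF : DifferentiableAt ℂ F z) : dz ξ (fun w => conj (F w)) z = 0 := by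
  rw [← Brid_conj_dzb, dzb_hol hF, map_zero]

theorem Brid_fderiv_comp {χ : ℝ → ℝ} {c : ℝ} (hΦ : DifferentiableAt ℝ Φ z)
    (hχ : HasDerivAt χ c (Φ z)) (v : Cn n) :
    fderiv ℝ (fun w => (χ (Φ w) : ℂ)) z v = c * fderiv ℝ (fun w => (Φ w : ℂ)) z v := by
  have h1 : HasFDerivAt (fun w => (χ (Φ w) : ℂ)) _ z :=
    Complex.ofRealCLM.hasFDerivAt.comp z (hχ.comp_hasFDerivAt z hΦ.hasFDerivAt)
  have h2 : HasFDerivAt (fun w => (Φ w : ℂ)) _ z :=
    Complex.ofRealCLM.hasFDerivAt.comp z hΦ.hasFDerivAt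
  rw [h1.fderiv, h2.fderiv]
  simp

theorem dz_comp {χ : ℝ → ℝ} {c : ℝ} (hΦ : DifferentiableAt ℝ Φ z) (hχ : HasDerivAt χ c (Φ z)) :
    dz ξ (fun w => (χ (Φ w) : ℂ)) z = c * dz ξ (fun w => (Φ w : ℂ)) z := by
  simp only [dz, Brid_fderiv_comp hΦ hχ]
  ring

theorem dzb_comp {χ : ℝ → ℝ} {c : ℝ} (hΦ : DifferentiableAt ℝ Φ z) (hχ : HasDerivAt χ c (Φ z)) :
    dzb ξ (fun w => (χ (Φ w) : ℂ)) z = c * dzb ξ (fun w => (Φ w : ℂ)) z := by
  simp only [dzb, Brid_fderiv_comp hΦ hχ]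
  ring

theorem Brid_normSq (F : Cn n → ℂ) :
    (fun w => ((‖F w‖ ^ 2 : ℝ) : ℂ)) = fun w => F w * conj (F w) := by
  funext w
  rw [Complex.mul_conj', Complex.ofReal_pow]

theorem dz_normSq (hF : DifferentiableAt ℂ F z) :
    dz ξ (fun w => ((‖F w‖ ^ 2 : ℝ) : ℂ)) z = conj (F z) * fderiv ℂ F z ξ := by
  have h := hF.restrictScalars ℝ
  rw [Brid_normSq, dz_mul h (Brid_conj_diff h), Brid_dz_conj_hol hF, dz_hol hF]
  ring

theorem Lev_const (c : ℝ) : Lev (fun _ => c) z ξ = 0 := by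
  have e : (dzb ξ fun _ : Cn n => (c : ℂ)) = fun _ => 0 := funext fun _ => dzb_const _
  unfold Lev lev
  rw [e, dz_const, Complex.zero_re]

theorem Lev_add (hΦ : ContDiffAt ℝ ∞ Φ z) (hΨ : ContDiffAt ℝ ∞ Ψ z) :
    Lev (fun w => Φ w + Ψ w) z ξ = Lev Φ z ξ + Lev Ψ z ξ := by
  have e : (dzb ξ fun w => ((Φ w + Ψ w : ℝ) : ℂ)) =ᶠ[𝓝 z]
      fun x => dzb ξ (fun w => (Φ w : ℂ)) x + dzb ξ (fun w => (Ψ w : ℂ)) x := by
    filter_upwards [Brid_ev (Brid_ofReal hΦ), Brid_ev (Brid_ofReal hΨ)] with x h1 h2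
    simp only [Complex.ofReal_add]
    exact dzb_add h1 h2
  unfold Lev lev
  rw [dz_congr e, dz_add (Brid_dzb_diff hΦ) (Brid_dzb_diff hΨ), Complex.add_re]

theorem Lev_const_mul (hΦ : ContDiffAt ℝ ∞ Φ z) (c : ℝ) :
    Lev (fun w => c * Φ w) z ξ = c * Lev Φ z ξ := by
  have e : (dzb ξ fun w => ((c * Φ w : ℝ) : ℂ)) =ᶠ[𝓝 z]
      fun x => dzb ξ (fun w => (Φ w : ℂ)) x * c := by
    filter_upwards [Brid_ev (Brid_ofReal hΦ)] with x h1
    simp only [Complex.ofReal_mul]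
    rw [dzb_mul (differentiableAt_const _) h1, dzb_const]
    ring
  unfold Lev lev
  rw [dz_congr e, Brid_dz_mul_const (Brid_dzb_diff hΦ), mul_comm, Complex.re_ofReal_mul]

theorem Lev_sub (hΦ : ContDiffAt ℝ ∞ Φ z) (hΨ : ContDiffAt ℝ ∞ Ψ z) :
    Lev (fun w => Φ w - Ψ w) z ξ = Lev Φ z ξ - Lev Ψ z ξ := by
  have h := Lev_add (ξ := ξ) hΦ (contDiffAt_const (c := (-1 : ℝ)).mul hΨ)
  rw [Lev_const_mul hΨ] at h
  simpa [sub_eq_add_neg] using h

theorem Lev_sum {ι : Type*} (s : Finset ι) {H : ι → Cn n → ℝ}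
    (hH : ∀ i ∈ s, ContDiffAt ℝ ∞ (H i) z) :
    Lev (fun w => ∑ i ∈ s, H i w) z ξ = ∑ i ∈ s, Lev (H i) z ξ := by
  classical
  induction s using Finset.induction_on with
  | empty => simpa using Lev_const 0
  | insert i s hi ih =>
    have h1 : ∀ j ∈ s, ContDiffAt ℝ ∞ (H j) z := fun j hj => hH j (Finset.mem_insert_of_mem hj)
    simp only [Finset.sum_insert hi]
    rw [Lev_add (hH i (Finset.mem_insert_self _ _)) (ContDiffAt.sum h1), ih h1]

theorem Lev_comp {χ χ₁ : ℝ → ℝ} {c : ℝ} (hΦ : ContDiffAt ℝ ∞ Φ z)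
    (h₁ : ∀ᶠ t in 𝓝 (Φ z), HasDerivAt χ (χ₁ t) t) (h₂ : HasDerivAt χ₁ c (Φ z)) :
    Lev (fun w => χ (Φ w)) z ξ =
      χ₁ (Φ z) * Lev Φ z ξ + c * ‖dz ξ (fun w => (Φ w : ℂ)) z‖ ^ 2 := by
  have hd := hΦ.differentiableAt (by simp)
  have e : (dzb ξ fun w => (χ (Φ w) : ℂ)) =ᶠ[𝓝 z]
      fun x => (χ₁ (Φ x) : ℂ) * dzb ξ (fun w => (Φ w : ℂ)) x := by
    filter_upwards [Brid_ev hΦ, hΦ.continuousAt.eventually h₁] with x h1 h2
    exact dzb_comp h1 h2
  unfold Lev lev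
  rw [dz_congr e, dz_mul (Brid_ofReal_diff (h₂.differentiableAt.fun_comp' z hd)) (Brid_dzb_diff hΦ),
    dz_comp hd h₂, ← conj_dz_real, mul_assoc, Complex.mul_conj', ← Complex.ofReal_pow,
    ← Complex.ofReal_mul, Complex.add_re, Complex.ofReal_re, Complex.re_ofReal_mul, add_comm]

theorem Lev_log (hΦ : ContDiffAt ℝ ∞ Φ z) (h0 : 0 < Φ z) :
    Lev (fun w => Real.log (Φ w)) z ξ =
      Lev Φ z ξ / Φ z - ‖dz ξ (fun w => (Φ w : ℂ)) z‖ ^ 2 / Φ z ^ 2 := by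
  have h1 : ∀ᶠ t in 𝓝 (Φ z), HasDerivAt Real.log t⁻¹ t :=
    (lt_mem_nhds h0).mono fun t ht => Real.hasDerivAt_log ht.ne'
  rw [Lev_comp (χ₁ := fun t => t⁻¹) hΦ h1 (hasDerivAt_inv h0.ne')]
  ring

theorem Lev_normSq (hF : AnalyticAt ℂ F z) :
    Lev (fun w => ‖F w‖ ^ 2) z ξ = ‖fderiv ℂ F z ξ‖ ^ 2 := by
  have hG : DifferentiableAt ℂ (fun w => fderiv ℂ F w ξ) z :=
    hF.fderiv.differentiableAt.clm_apply (differentiableAt_const _)
  have e : (dzb ξ fun w => ((‖F w‖ ^ 2 : ℝ) : ℂ)) =ᶠ[𝓝 z]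
      fun x => F x * conj (fderiv ℂ F x ξ) := by
    filter_upwards [hF.eventually_analyticAt] with x hx
    rw [← conj_dz_real (fun w => ‖F w‖ ^ 2), dz_normSq hx.differentiableAt, map_mul,
      Complex.conj_conj]
  unfold Lev lev
  rw [dz_congr e, dz_mul (hF.differentiableAt.restrictScalars ℝ)
    (Brid_conj_diff (hG.restrictScalars ℝ)), Brid_dz_conj_hol hG, dz_hol hF.differentiableAt, mul_zero,
    add_zero, Complex.mul_conj', ← Complex.ofReal_pow, Complex.ofReal_re]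

theorem contDiffAt_normSq (hF : AnalyticAt ℂ F z) : ContDiffAt ℝ ∞ (fun w => ‖F w‖ ^ 2) z := by
  exact ((hF.contDiffAt (n := ∞)).restrict_scalars ℝ).norm_sq ℂ

theorem Lev_log_normSq (hF : AnalyticAt ℂ F z) (h0 : F z ≠ 0) :
    Lev (fun w => Real.log (‖F w‖ ^ 2)) z ξ = 0 := by
  have h1 : ‖F z‖ ≠ 0 := norm_ne_zero_iff.2 h0
  rw [Lev_log (contDiffAt_normSq hF) (by positivity), Lev_normSq hF,
    dz_normSq hF.differentiableAt, norm_mul, Complex.norm_conj]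
  field_simp
  ring

theorem Lev_smul (hΦ : ContDiffAt ℝ ∞ Φ z) (c : ℂ) : Lev Φ z (c • ξ) = ‖c‖ ^ 2 * Lev Φ z ξ := by
  have e : (dzb (c • ξ) fun w => (Φ w : ℂ)) = fun x => dzb ξ (fun w => (Φ w : ℂ)) x * conj c :=
    funext fun x => by rw [dzb_smul, mul_comm]
  unfold Lev lev
  rw [e, Brid_dz_smul, Brid_dz_mul_const (Brid_dzb_diff hΦ), mul_comm _ (conj c), ← mul_assoc,
    Complex.mul_conj', ← Complex.ofReal_pow, Complex.re_ofReal_mul]

theorem Brid_fderiv_hol {T : Cn n → Cn n} (hF : DifferentiableAt ℝ F (T z))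
    (hT : DifferentiableAt ℂ T z) (v : Cn n) :
    fderiv ℝ (fun w => F (T w)) z v = fderiv ℝ F (T z) (fderiv ℂ T z v) := by
  rw [fderiv_fun_comp z hF (hT.restrictScalars ℝ), hT.fderiv_restrictScalars ℝ]
  rfl

theorem Brid_dz_comp_hol {T : Cn n → Cn n} (hF : DifferentiableAt ℝ F (T z))
    (hT : DifferentiableAt ℂ T z) :
    dz ξ (fun w => F (T w)) z = dz (fderiv ℂ T z ξ) F (T z) := by
  simp only [dz, Brid_fderiv_hol hF hT, map_smul]

theorem dzb_comp_hol {T : Cn n → Cn n} (hF : DifferentiableAt ℝ F (T z))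
    (hT : DifferentiableAt ℂ T z) :
    dzb ξ (fun w => F (T w)) z = dzb (fderiv ℂ T z ξ) F (T z) := by
  simp only [dzb, Brid_fderiv_hol hF hT, map_smul]

theorem Lev_comp_hol {T : Cn n → Cn n} (hΦ : ContDiffAt ℝ ∞ Φ (T z)) (hT : AnalyticAt ℂ T z) :
    Lev (fun w => Φ (T w)) z ξ = Lev Φ (T z) (fderiv ℂ T z ξ) := by
  have hT1 := hT.differentiableAt
  have hd : ∀ k, DifferentiableAt ℝ (eX (bv k) fun w => (Φ w : ℂ)) (T z) := fun k =>
    (contDiffAt_eX (Brid_ofReal hΦ)).differentiableAt (by simp)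
  have hd' : ∀ k, DifferentiableAt ℝ (fun x => eX (bv k) (fun w => (Φ w : ℂ)) (T x)) z :=
    fun k => (hd k).comp z (hT1.restrictScalars ℝ)
  have hG : ∀ k, DifferentiableAt ℂ (fun x => fderiv ℂ T x ξ k) z := fun k =>
    differentiableAt_pi.1 (hT.fderiv.differentiableAt.clm_apply (differentiableAt_const ξ)) k
  have hG' := fun k => Brid_conj_diff ((hG k).restrictScalars ℝ)
  have e : (dzb ξ fun w => (Φ (T w) : ℂ)) =ᶠ[𝓝 z]
      fun x => ∑ k, eX (bv k) (fun w => (Φ w : ℂ)) (T x) * conj (fderiv ℂ T x ξ k) := by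
    filter_upwards [hT.eventually_analyticAt,
      hT.continuousAt.eventually (Brid_ev (Brid_ofReal hΦ))] with x h1 h2
    rw [dzb_comp_hol (F := fun w => (Φ w : ℂ)) h2 h1.differentiableAt, dzb_eq_sum]
  rw [Lev_eq_sum hΦ, Finset.sum_comm]
  unfold Lev lev
  rw [dz_congr e, dz_sum _ fun k _ => (hd' k).fun_mul (hG' k)]
  refine congrArg Complex.re (Finset.sum_congr rfl fun k _ => ?_)
  rw [dz_mul (hd' k) (hG' k), Brid_dz_conj_hol (hG k), Brid_dz_comp_hol (hd k) hT1, mul_zero, add_zero,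
    dz_eq_sum, Finset.sum_mul]

theorem continuousOn_Lev {U : Set (Cn n)} (hU : IsOpen U) (hΦ : ContDiffOn ℝ ∞ Φ U) :
    ContinuousOn (fun q : Cn n × Cn n => Lev Φ q.1 q.2) (U ×ˢ univ) := by
  have h1 : ∀ j k, ContinuousOn (fun q : Cn n × Cn n =>
      eX (zv j) (eX (bv k) fun w => (Φ w : ℂ)) q.1) (U ×ˢ univ) := fun j k q hq =>
    (((contDiffAt_eX (contDiffAt_eX (Brid_ofReal
      (hΦ.contDiffAt (hU.mem_nhds hq.1))))).continuousAt).comp
        continuousAt_fst).continuousWithinAt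
  have h2 : ∀ j, Continuous fun q : Cn n × Cn n => q.2 j := fun j => by fun_prop
  refine ContinuousOn.congr (Complex.continuous_re.comp_continuousOn
    (continuousOn_finsetSum Finset.univ fun j _ => continuousOn_finsetSum Finset.univ fun k _ =>
      ((h1 j k).mul (h2 j).continuousOn).mul
        (Complex.continuous_conj.comp (h2 k)).continuousOn)) fun q hq => ?_
  exact Lev_eq_sum (hΦ.contDiffAt (hU.mem_nhds hq.1))

theorem continuousOn_dzb {U : Set (Cn n)} (hU : IsOpen U) (hF : ContDiffOn ℝ ∞ F U) :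
    ContinuousOn (fun q : Cn n × Cn n => dzb q.2 F q.1) (U ×ˢ univ) := by
  have h1 : ContinuousOn (fun q : Cn n × Cn n => fderiv ℝ F q.1) (U ×ˢ univ) :=
    (hF.continuousOn_fderiv_of_isOpen hU (by simp)).comp continuousOn_fst fun q hq => hq.1
  have h2 : Continuous fun q : Cn n × Cn n => Complex.I • q.2 := by fun_prop
  exact ((h1.clm_apply continuousOn_snd).add
    (continuousOn_const.mul (h1.clm_apply h2.continuousOn))).div_const 2

/-- A positive definite form dominates any homogeneous form on a compact set. -/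
theorem exists_dom {K : Set (Cn n)} (hK : IsCompact K) {p q : Cn n → Cn n → ℝ}
    (hp : ContinuousOn (fun x : Cn n × Cn n => p x.1 x.2) (K ×ˢ univ))
    (hq : ContinuousOn (fun x : Cn n × Cn n => q x.1 x.2) (K ×ˢ univ))
    (hp2 : ∀ z ∈ K, ∀ (c : ℂ) ξ, p z (c • ξ) = ‖c‖ ^ 2 * p z ξ)
    (hq2 : ∀ z ∈ K, ∀ (c : ℂ) ξ, q z (c • ξ) = ‖c‖ ^ 2 * q z ξ)
    (hpos : ∀ z ∈ K, ∀ ξ, ξ ≠ 0 → 0 < p z ξ) :
    ∃ C > (0 : ℝ), ∀ z ∈ K, ∀ ξ, q z ξ ≤ C * p z ξ := by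
  have hS : K ×ˢ Metric.sphere (0 : Cn n) 1 ⊆ K ×ˢ univ := prod_mono subset_rfl (subset_univ _)
  have hne : ∀ ξ ∈ Metric.sphere (0 : Cn n) 1, ξ ≠ 0 := by
    intro ξ hξ h
    simp [h] at hξ
  obtain ⟨C, hC⟩ := (hK.prod (isCompact_sphere (0 : Cn n) 1)).exists_bound_of_continuousOn
    ((hq.mono hS).div (hp.mono hS) fun x hx => (hpos _ hx.1 _ (hne _ hx.2)).ne')
  refine ⟨max C 1, lt_max_of_lt_right one_pos, fun z hz ξ => ?_⟩
  by_cases h0 : ξ = 0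
  · have h1 := hp2 z hz 0 ξ
    have h2 := hq2 z hz 0 ξ
    rw [zero_smul, ← h0, norm_zero, zero_pow two_ne_zero, zero_mul] at h1 h2
    rw [h1, h2, mul_zero]
  · have h1 : (‖ξ‖ : ℂ) ≠ 0 := Complex.ofReal_ne_zero.2 (norm_ne_zero_iff.2 h0)
    have h2 : (‖ξ‖ : ℂ)⁻¹ • ξ ∈ Metric.sphere (0 : Cn n) 1 := by
      rw [mem_sphere_zero_iff_norm, norm_smul, norm_inv, Complex.norm_real, norm_norm,
        inv_mul_cancel₀ (norm_ne_zero_iff.2 h0)]
    have h3 := hpos z hz _ (hne _ h2)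
    have h4 : q z ((‖ξ‖ : ℂ)⁻¹ • ξ) / p z ((‖ξ‖ : ℂ)⁻¹ • ξ) ≤ max C 1 :=
      ((le_abs_self _).trans (hC (z, _) ⟨hz, h2⟩)).trans (le_max_left _ _)
    rw [div_le_iff₀ h3] at h4
    have h5 := hp2 z hz (‖ξ‖ : ℂ) ((‖ξ‖ : ℂ)⁻¹ • ξ)
    have h6 := hq2 z hz (‖ξ‖ : ℂ) ((‖ξ‖ : ℂ)⁻¹ • ξ)
    rw [smul_inv_smul₀ h1] at h5 h6
    rw [h5, h6, mul_left_comm]
    exact mul_le_mul_of_nonneg_left h4 (sq_nonneg _)

section RD

variable {Y : Type} [TopologicalSpace Y] [MeasurableSpace Y] {D : RD n Y} {y : Y}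

theorem db_rep {f : Y → ℂ} (h : f =ᶠ[𝓝 y] F ∘ D.pr) :
    ∑ j, D.db j f y * conj (ξ j) = dzb ξ F (D.pr y) := by
  rw [dzb_eq_sum]
  exact Finset.sum_congr rfl fun j _ => by rw [RD.db, RD.dX_rep h]

theorem levi_rep {φ : Y → ℝ} (hΦ : ContDiffAt ℝ ∞ Φ (D.pr y)) (h : φ =ᶠ[𝓝 y] Φ ∘ D.pr) :
    D.levi φ y ξ = Lev Φ (D.pr y) ξ := by
  have h1 : (fun p => (φ p : ℂ)) =ᶠ[𝓝 y] (fun w => (Φ w : ℂ)) ∘ D.pr :=
    h.mono fun p hp => congrArg _ hp
  rw [Lev_eq_sum hΦ]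
  refine congrArg Complex.re (Finset.sum_congr rfl fun j _ => Finset.sum_congr rfl fun k _ => ?_)
  rw [RD.dz, RD.db, RD.dX_rep (RD.dX_rep_ev h1)]

end RD

end Vale.Agent.P271A
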