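import Vale.Agent.P271A.Moll

/-! P271A: mean value property and the local Weyl lemma. -/

open MeasureTheory Filter Topology Set Complex
open scoped ContDiff ENNReal ComplexConjugate

namespace Vale.Agent.P271A

variable {n : ℕ}

theorem mean_rot (F : E n → ℂ) {a : ℂ} (ha : ‖a‖ = 1) (r : ℝ) :
    ∫ v in Metric.ball (0 : E n) r, F (a • v) = ∫ v in Metric.ball (0 : E n) r, F v := by
  have ha0 : a ≠ 0 := fun h => by simp [h] at ha
  have h1 : MeasurePreserving (fun z : ℂ => a * z) :=
    (rotation ⟨a, by simpa [Submonoid.unitSphere] using ha⟩).measurePreserving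
  have h2 : MeasurePreserving (fun v : E n => a • v) :=
    volume_preserving_pi (f := fun _ : Fin n => fun z : ℂ => a * z) fun _ => h1
  have h3 : MeasurableEmbedding (fun v : E n => a • v) :=
    (Homeomorph.smulOfNeZero a ha0).measurableEmbedding
  have h4 := h2.setIntegral_preimage_emb h3 F (Metric.ball 0 r)
  have h5 : (fun v : E n => a • v) ⁻¹' Metric.ball 0 r = Metric.ball 0 r := by
    ext v
    simp [norm_smul, ha]
  rwa [h5] at h4

theorem mean_zero {F : E n → ℂ} {r r' : ℝ} (hr' : r < r')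
    (hF : DifferentiableOn ℂ F (Metric.ball 0 r')) :
    ∫ v in Metric.ball (0 : E n) r, F v = volume.real (Metric.ball (0 : E n) r) * F 0 := by
  have hn : ∀ θ : ℝ, ‖circleMap 0 1 θ‖ = 1 := fun θ => by simp
  have hmem : ∀ (a : ℂ) (v : E n), ‖a‖ ≤ 1 → ‖v‖ ≤ r → a • v ∈ Metric.ball (0 : E n) r' := by
    intro a v ha hv
    rw [mem_ball_zero_iff, norm_smul]
    exact (mul_le_of_le_one_left (norm_nonneg _) ha).trans_lt (hv.trans_lt hr')
  have hc : ContinuousOn (fun p : ℝ × E n => F (circleMap 0 1 p.1 • p.2))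
      (Icc 0 (2 * Real.pi) ×ˢ Metric.closedBall 0 r) := by
    refine hF.continuousOn.comp (Continuous.continuousOn ?_) fun p hp => ?_
    · exact ((continuous_circleMap 0 1).comp continuous_fst).smul continuous_snd
    · exact hmem _ _ (hn _).le (mem_closedBall_zero_iff.1 hp.2)
  have hi : Integrable (Function.uncurry fun (θ : ℝ) (v : E n) => F (circleMap 0 1 θ • v))
      ((volume.restrict (uIoc 0 (2 * Real.pi))).prod (volume.restrict (Metric.ball 0 r))) := by
    rw [Measure.prod_restrict, uIoc_of_le Real.two_pi_pos.le]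
    exact (hc.integrableOn_compact (isCompact_Icc.prod (isCompact_closedBall _ _))).mono_set
      (prod_mono Ioc_subset_Icc_self Metric.ball_subset_closedBall)
  have h1 := intervalIntegral_integral_swap hi
  have h2 : ∀ v ∈ Metric.ball (0 : E n) r,
      ∫ θ in (0 : ℝ)..2 * Real.pi, F (circleMap 0 1 θ • v) = (2 * Real.pi : ℝ) * F 0 := by
    intro v hv
    have hv' : ‖v‖ ≤ r := (mem_ball_zero_iff.1 hv).le
    have hd : DifferentiableOn ℂ (fun t : ℂ => F (t • v)) (Metric.closedBall 0 1) :=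
      hF.comp (by fun_prop) fun t ht => hmem _ _ (mem_closedBall_zero_iff.1 ht) hv'
    have h3 : Real.circleAverage (fun t : ℂ => F (t • v)) 0 1 = F ((0 : ℂ) • v) := by
      refine DiffContOnCl.circleAverage (f := fun t : ℂ => F (t • v)) ?_
      rw [abs_one]
      refine DifferentiableOn.diffContOnCl ?_
      rwa [closure_ball _ one_ne_zero]
    rw [Real.circleAverage_def, zero_smul, real_smul] at h3
    rw [← h3, ← mul_assoc, ← ofReal_mul, mul_inv_cancel₀ Real.two_pi_pos.ne', ofReal_one, one_mul]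
  rw [setIntegral_congr_fun measurableSet_ball h2, setIntegral_const] at h1
  simp only [mean_rot F (hn _) r, intervalIntegral.integral_const, sub_zero, real_smul] at h1
  have h4 : ((2 * Real.pi : ℝ) : ℂ) ≠ 0 := ofReal_ne_zero.2 Real.two_pi_pos.ne'
  refine mul_left_cancel₀ h4 (h1.trans ?_)
  ring

/-- The mean value property on polydiscs. -/
theorem mean_value {h : E n → ℂ} {c : E n} {r r' : ℝ} (hr : 0 < r) (hr' : r < r')
    (hh : DifferentiableOn ℂ h (Metric.ball c r')) :
    ∫ z in Metric.ball c r, h z = volume.real (Metric.ball (0 : E n) r) * h c := by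
  have h1 := (measurePreserving_add_left (volume : Measure (E n)) c).setIntegral_preimage_emb
    (measurableEmbedding_addLeft c) h (Metric.ball c r)
  have h2 : ∀ s : ℝ, (fun v : E n => c + v) ⁻¹' Metric.ball c s = Metric.ball 0 s := fun s => by
    ext v
    simp [dist_eq_norm]
  have h3 : DifferentiableOn ℂ (fun v : E n => h (c + v)) (Metric.ball 0 r') :=
    hh.comp (by fun_prop) fun v hv => by
      rw [← h2] at hv
      exact hv
  rw [← h1, h2, mean_zero hr' h3, add_zero]

theorem norm_le_mean {h : E n → ℂ} {c : E n} {r r' : ℝ} (hr : 0 < r) (hr' : r < r')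
    (hh : DifferentiableOn ℂ h (Metric.ball c r')) :
    volume.real (Metric.ball (0 : E n) r) * ‖h c‖ ^ 2 ≤ ∫ z in Metric.ball c r, ‖h z‖ ^ 2 := by
  have h1 := mean_value hr hr' (hh.pow 2)
  have h2 := norm_integral_le_integral_norm (μ := volume.restrict (Metric.ball c r)) (h ^ 2)
  rw [h1, norm_mul, norm_real, Real.norm_of_nonneg measureReal_nonneg] at h2
  simpa only [Pi.pow_apply, norm_pow] using h2

theorem mean_cs {w : E n → ℂ} (hw : AEStronglyMeasurable w volume) (z : E n) (s : ℝ) {ε : ℝ}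
    (hε : 0 ≤ ε) (h : eLpNorm w 2 volume ≤ ENNReal.ofReal ε) :
    ‖∫ t in Metric.ball z s, w t‖ ≤
      ε * (volume (Metric.ball (0 : E n) s) ^ (1 / 2 : ℝ)).toReal := by
  have h1 : ‖∫ t in Metric.ball z s, w t‖ₑ ≤ eLpNorm w 1 (volume.restrict (Metric.ball z s)) := by
    rw [eLpNorm_one_eq_lintegral_enorm]
    exact enorm_integral_le_lintegral_enorm _
  have h2 := eLpNorm_le_eLpNorm_mul_rpow_measure_univ (p := 1) (q := 2) (by norm_num)
    (hw.restrict (s := Metric.ball z s))
  rw [Measure.restrict_apply_univ, Measure.addHaar_ball_center] at h2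
  have h3 : (1 / (1 : ℝ≥0∞).toReal - 1 / (2 : ℝ≥0∞).toReal : ℝ) = 1 / 2 := by norm_num
  rw [h3] at h2
  have h4 : volume (Metric.ball (0 : E n) s) ^ (1 / 2 : ℝ) ≠ ⊤ :=
    ENNReal.rpow_ne_top_of_nonneg (by norm_num) measure_ball_lt_top.ne
  have h5 := (h1.trans h2).trans (mul_le_mul_left ((eLpNorm_restrict_le _ _ _ _).trans h) _)
  have h6 := ENNReal.toReal_mono (ENNReal.mul_ne_top ENNReal.ofReal_ne_top h4) h5
  rwa [toReal_enorm, ENNReal.toReal_mul, ENNReal.toReal_ofReal hε] at h6

/-- The local Weyl lemma. -/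
theorem weyl_loc {u : E n → ℂ} (hu : MemLp u 2 volume) {c : E n} {r : ℝ} (hr : 0 < r)
    (h : ∀ j (t : E n → ℂ), ContDiff ℝ ∞ t → HasCompactSupport t →
      tsupport t ⊆ Metric.ball c r → ∫ z, u z * eX (bv j) t z = 0) :
    ∃ H : E n → ℂ, DifferentiableOn ℂ H (Metric.ball c (r / 4)) ∧
      ∀ᵐ z, z ∈ Metric.ball c (r / 4) → u z = H z := by
  have hV : 0 < volume.real (Metric.ball (0 : E n) (r / 4)) :=
    ENNReal.toReal_pos (Metric.measure_ball_pos _ _ (by linarith)).ne' measure_ball_lt_top.ne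
  set V := volume.real (Metric.ball (0 : E n) (r / 4)) with hVd
  set C := (volume (Metric.ball (0 : E n) (r / 4)) ^ (1 / 2 : ℝ)).toReal with hC
  have key : ∀ k : ℕ, ∃ U : E n → ℂ, ContDiff ℝ ∞ U ∧ MemLp U 2 volume ∧
      DifferentiableOn ℂ U (Metric.ball c (3 * r / 4)) ∧
      eLpNorm (fun z => U z - u z) 2 volume ≤ ENNReal.ofReal (1 / ((k : ℝ) + 1)) := by
    intro k
    obtain ⟨δ, hδ, hβ⟩ := cv_tendsto hu (ε := ENNReal.ofReal (1 / ((k : ℝ) + 1)))
      (ENNReal.ofReal_pos.2 (by positivity))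
    have hm : 0 < min δ (r / 8) := lt_min hδ (by linarith)
    let β : ContDiffBump (0 : E n) := ⟨min δ (r / 8) / 2, min δ (r / 8), by linarith, by linarith⟩
    have hs := cv_smooth hu (ker_smooth β) (ker_compact β)
    refine ⟨cv u (ker β), hs, ⟨hs.continuous.aestronglyMeasurable,
      (cv_young hu β).trans_lt hu.2⟩, fun z hz => ?_, hβ β (min_le_left _ _)⟩
    refine (differentiableAt_of_eX (hs.differentiable (by simp) z)
      fun j => ?_).differentiableWithinAt
    obtain ⟨h1, h2, h3⟩ := refl_test (ker_smooth β) (ker_compact β) z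
    rw [eX_cv hu (ker_smooth β) (ker_compact β), h j _ h1 h2 fun t ht => ?_, neg_zero]
    have h4 : ‖z - t‖ ≤ min δ (r / 8) := mem_closedBall_zero_iff.1 (ker_tsupport β (h3 t ht))
    have h5 := dist_triangle t z c
    have h6 := min_le_right δ (r / 8)
    rw [Metric.mem_ball] at hz ⊢
    rw [dist_comm t z, dist_eq_norm z t] at h5
    linarith
  choose U hUs hU2 hUd hUe using key
  let H : E n → ℂ := fun z => (V : ℂ)⁻¹ * ∫ t in Metric.ball z (r / 4), u t
  have hest : ∀ k : ℕ, ∀ z ∈ Metric.ball c (r / 4),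
      ‖U k z - H z‖ ≤ V⁻¹ * C * (1 / ((k : ℝ) + 1)) := by
    intro k z hz
    have h1 : Metric.ball z (r / 2) ⊆ Metric.ball c (3 * r / 4) :=
      Metric.ball_subset_ball' (by rw [Metric.mem_ball] at hz; linarith)
    have h2 := mean_value (r := r / 4) (by linarith) (by linarith) ((hUd k).mono h1)
    have hfin : IsFiniteMeasure (volume.restrict (Metric.ball z (r / 4))) :=
      isFiniteMeasure_restrict.2 measure_ball_lt_top.ne
    have h3 := mean_cs ((hU2 k).1.sub hu.1) z (r / 4) (by positivity) (hUe k)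
    simp only [Pi.sub_apply] at h3
    rw [integral_sub (((hU2 k).restrict _).integrable one_le_two)
      ((hu.restrict _).integrable one_le_two), h2, ← hVd, ← hC] at h3
    have hV' : (V : ℂ) ≠ 0 := ofReal_ne_zero.2 hV.ne'
    have h4 : U k z - H z = (V : ℂ)⁻¹ * (V * U k z - ∫ t in Metric.ball z (r / 4), u t) := by
      simp only [H]
      field_simp
    rw [h4, norm_mul, norm_inv, norm_real, Real.norm_of_nonneg hV.le, mul_assoc, mul_comm C]
    exact mul_le_mul_of_nonneg_left h3 (inv_nonneg.2 hV.le)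
  have he : Tendsto (fun k : ℕ => V⁻¹ * C * (1 / ((k : ℝ) + 1))) atTop (𝓝 0) := by
    simpa using tendsto_one_div_add_atTop_nhds_zero_nat.const_mul (V⁻¹ * C)
  refine ⟨H, fun z hz => ?_, ?_⟩
  · obtain ⟨R, hR, hR'⟩ := Metric.isOpen_iff.1 Metric.isOpen_ball z hz
    refine (P278F.differentiableAt_of_unif hR (fun k => (hUd k).mono
      (hR'.trans (Metric.ball_subset_ball (by linarith)))) he
      fun k w hw => hest k w (hR' hw)).differentiableWithinAt
  · have h1 : Tendsto (fun k : ℕ => eLpNorm (U k - u) 2 volume) atTop (𝓝 0) := by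
      have h2 : Tendsto (fun k : ℕ => ENNReal.ofReal (1 / ((k : ℝ) + 1))) atTop (𝓝 0) := by
        simpa using ENNReal.tendsto_ofReal (tendsto_one_div_add_atTop_nhds_zero_nat (𝕜 := ℝ))
      exact tendsto_of_tendsto_of_tendsto_of_le_of_le tendsto_const_nhds h2
        (fun _ => zero_le) hUe
    obtain ⟨s, hs, h3⟩ := (tendstoInMeasure_of_tendsto_eLpNorm two_ne_zero (fun k => (hU2 k).1)
      hu.1 h1).exists_seq_tendsto_ae
    filter_upwards [h3] with z hz hzb
    refine tendsto_nhds_unique hz (Tendsto.comp (g := fun k => U k z) ?_ hs.tendsto_atTop)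
    rw [tendsto_iff_norm_sub_tendsto_zero]
    exact squeeze_zero (fun _ => norm_nonneg _) (fun k => hest k z hzb) he

end Vale.Agent.P271A
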