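import Vale.Agent.P271A.Defs
import Vale.Agent.P278F.Osg

/-! P271A: calculus on Riemann domains. -/

open MeasureTheory Filter Topology Set Complex
open scoped ContDiff ENNReal ComplexConjugate

namespace Vale.Agent.P271A

variable {n : ℕ}

theorem eX_congr {ξ : E n × E n} {F G : E n → ℂ} {z : E n} (h : F =ᶠ[𝓝 z] G) :
    eX ξ F z = eX ξ G z := by
  simp only [eX, h.fderiv_eq]

theorem eX_congr_ev {ξ : E n × E n} {F G : E n → ℂ} {z : E n} (h : F =ᶠ[𝓝 z] G) :
    eX ξ F =ᶠ[𝓝 z] eX ξ G :=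
  h.eventually_nhds.mono fun _ hw => eX_congr hw

theorem contDiffAt_eX {ξ : E n × E n} {F : E n → ℂ} {z : E n} (h : ContDiffAt ℝ ∞ F z) :
    ContDiffAt ℝ ∞ (eX ξ F) z := by
  have h1 : ContDiffAt ℝ ∞ (fderiv ℝ F) z := h.fderiv_right (m := ∞) (by simp)
  exact (h1.clm_apply contDiffAt_const).add
    (contDiffAt_const.mul (h1.clm_apply contDiffAt_const))

theorem contDiff_eX {ξ : E n × E n} {F : E n → ℂ} (h : ContDiff ℝ ∞ F) :
    ContDiff ℝ ∞ (eX ξ F) :=
  contDiff_iff_contDiffAt.2 fun _ => contDiffAt_eX h.contDiffAt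

theorem eX_add {ξ : E n × E n} {F G : E n → ℂ} {z : E n} (hF : DifferentiableAt ℝ F z)
    (hG : DifferentiableAt ℝ G z) : eX ξ (fun w => F w + G w) z = eX ξ F z + eX ξ G z := by
  simp only [eX, fderiv_fun_add hF hG, add_apply]; ring

theorem eX_mul {ξ : E n × E n} {F G : E n → ℂ} {z : E n} (hF : DifferentiableAt ℝ F z)
    (hG : DifferentiableAt ℝ G z) :
    eX ξ (fun w => F w * G w) z = eX ξ F z * G z + F z * eX ξ G z := by
  simp only [eX, fderiv_fun_mul hF hG, add_apply,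
    smul_apply, smul_eq_mul]; ring

theorem eX_const (ξ : E n × E n) (c : ℂ) (z : E n) : eX ξ (fun _ => c) z = 0 := by
  simp [eX]

theorem eX_comm {ξ ζ : E n × E n} {F : E n → ℂ} {z : E n} (h : ContDiffAt ℝ ∞ F z) :
    eX ξ (eX ζ F) z = eX ζ (eX ξ F) z := by
  have h1 : ContDiffAt ℝ ∞ (fderiv ℝ F) z := h.fderiv_right (m := ∞) (by simp)
  have h2 : DifferentiableAt ℝ (fderiv ℝ F) z := h1.differentiableAt (by simp)
  have hs : IsSymmSndFDerivAt ℝ F z := h.isSymmSndFDerivAt (by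
    rw [minSmoothness_of_isRCLikeNormedField]; exact ENat.LEInfty.out)
  have key : ∀ a b v : E n, fderiv ℝ (fun w => fderiv ℝ F w a + I * fderiv ℝ F w b) z v =
      fderiv ℝ (fderiv ℝ F) z v a + I * fderiv ℝ (fderiv ℝ F) z v b := by
    intro a b v
    have ha := (h2.hasFDerivAt.clm_apply (hasFDerivAt_const a z))
    have hb := (h2.hasFDerivAt.clm_apply (hasFDerivAt_const b z))
    have := (ha.add (hb.const_mul I)).fderiv
    rw [show (fun w => fderiv ℝ F w a + I * fderiv ℝ F w b) =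
      ((fun y => (fderiv ℝ F y) a) + fun y => I * (fderiv ℝ F y) b) from rfl, this]
    simp
  have e1 : ∀ η : E n × E n, eX η F = fun w => fderiv ℝ F w η.1 + I * fderiv ℝ F w η.2 :=
    fun _ => rfl
  rw [eX, eX, e1, e1, key, key, key, key, hs.eq ξ.1 ζ.1, hs.eq ξ.1 ζ.2, hs.eq ξ.2 ζ.1,
    hs.eq ξ.2 ζ.2]
  ring

theorem conj_eX (ξ : E n × E n) (F : E n → ℂ) (z : E n) :
    conj (eX ξ F z) = eX (ξ.1, -ξ.2) (fun w => conj (F w)) z := by
  have : fderiv ℝ (fun w => conj (F w)) z =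
      (conjCLE : ℂ →L[ℝ] ℂ).comp (fderiv ℝ F z) := conjCLE.comp_fderiv
  simp [eX, this]

theorem eX_hol {ξ : E n × E n} {F : E n → ℂ} {z : E n} (h : DifferentiableAt ℂ F z) :
    eX ξ F z = fderiv ℂ F z (ξ.1 + I • ξ.2) := by
  simp [eX, h.fderiv_restrictScalars ℝ]

theorem bv_hol (j : Fin n) : (bv j).1 + I • (bv j).2 = 0 := by
  ext i
  by_cases h : i = j
  · subst h
    simp only [bv, Pi.add_apply, Pi.smul_apply, Pi.single_eq_same, smul_eq_mul, Pi.zero_apply]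
    linear_combination (1 / 2 : ℂ) * I_mul_I
  · simp [bv, h]

theorem zv_hol (j : Fin n) : (zv j).1 + I • (zv j).2 = Pi.single j 1 := by
  ext i
  by_cases h : i = j
  · subst h
    simp only [zv, Pi.add_apply, Pi.smul_apply, Pi.single_eq_same, smul_eq_mul]
    linear_combination (-1 / 2 : ℂ) * I_mul_I
  · simp [zv, h]

theorem zv_conj (j : Fin n) : ((zv j).1, -(zv j).2) = bv j := by
  simp only [zv, bv, Prod.mk.injEq, true_and]
  ext i
  by_cases h : i = j
  · subst h; simp; ring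
  · simp [h]

theorem bv_conj (j : Fin n) : ((bv j).1, -(bv j).2) = zv j := by
  simp only [zv, bv, Prod.mk.injEq, true_and]
  ext i
  by_cases h : i = j
  · subst h; simp; ring
  · simp [h]

/-- The Cauchy-Riemann equations imply complex differentiability. -/
theorem differentiableAt_of_eX {F : E n → ℂ} {z : E n} (hF : DifferentiableAt ℝ F z)
    (h : ∀ j, eX (bv j) F z = 0) : DifferentiableAt ℂ F z := by
  set L := fderiv ℝ F z with hL
  have h1 : ∀ j, L (Pi.single j I) = I * L (Pi.single j 1) := by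
    intro j
    have h2 := h j
    have e1 : (Pi.single j (1 / 2) : E n) = (1 / 2 : ℝ) • (Pi.single j 1 : E n) := by
      ext i; by_cases hi : i = j
      · subst hi; simp
      · simp [hi]
    have e2 : (Pi.single j (I / 2) : E n) = (1 / 2 : ℝ) • (Pi.single j I : E n) := by
      ext i; by_cases hi : i = j
      · subst hi; simp; ring
      · simp [hi]
    simp only [eX, bv, ← hL] at h2
    rw [e1, e2, map_smul, map_smul] at h2
    simp only [real_smul] at h2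
    push_cast at h2
    linear_combination (-2 * I) * h2 + (L (Pi.single j I)) * I_mul_I
  have h3 : ∀ j (c : ℂ), L (Pi.single j c) = c * L (Pi.single j 1) := by
    intro j c
    have e : (Pi.single j c : E n) =
        c.re • (Pi.single j 1 : E n) + c.im • (Pi.single j I : E n) := by
      ext i; by_cases hi : i = j
      · subst hi; simp
      · simp [hi]
    rw [e, map_add, map_smul, map_smul, h1]
    simp only [real_smul]
    linear_combination (L (Pi.single j 1)) * re_add_im c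
  refine (differentiableAt_iff_restrictScalars ℝ hF).2
    ⟨∑ j, L (Pi.single j 1) • (ContinuousLinearMap.proj j : E n →L[ℂ] ℂ), ?_⟩
  ext v
  have hv : v = ∑ j, (Pi.single j (v j) : E n) := (Finset.univ_sum_single v).symm
  rw [← hL]
  have e : L v = ∑ j, v j * L (Pi.single j 1) := by
    conv_lhs => rw [hv, map_sum]
    exact Finset.sum_congr rfl fun j _ => h3 j _
  rw [e]
  simp [mul_comm]

namespace RD

variable {Y : Type} [TopologicalSpace Y] [MeasurableSpace Y] {D : RD n Y}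
  {f g : Y → ℂ} {φ ψ : Y → ℝ} {y : Y} {ξ ζ : E n × E n}

theorem ch_coe (D : RD n Y) (y : Y) : ⇑(D.ch y) = D.pr := (D.lh y).choose_spec.2.symm

theorem mem_ch (D : RD n Y) (y : Y) : y ∈ (D.ch y).source := (D.lh y).choose_spec.1

theorem continuous_pr (D : RD n Y) : Continuous D.pr := D.lh.continuous

theorem pr_mem (D : RD n Y) {p : Y} (hp : p ∈ (D.ch y).source) : D.pr p ∈ (D.ch y).target := by
  rw [← D.ch_coe y]; exact (D.ch y).map_source hp

theorem sec_pr (D : RD n Y) {p : Y} (hp : p ∈ (D.ch y).source) : D.sec y (D.pr p) = p := by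
  rw [← D.ch_coe y]; exact (D.ch y).left_inv hp

theorem pr_sec (D : RD n Y) {z : E n} (hz : z ∈ (D.ch y).target) : D.pr (D.sec y z) = z := by
  rw [← D.ch_coe y]; exact (D.ch y).right_inv hz

theorem sec_mem (D : RD n Y) {z : E n} (hz : z ∈ (D.ch y).target) :
    D.sec y z ∈ (D.ch y).source := (D.ch y).map_target hz

theorem injOn_ch (D : RD n Y) (y : Y) : InjOn D.pr (D.ch y).source := by
  rw [← D.ch_coe y]; exact (D.ch y).injOn

theorem target_nhds (D : RD n Y) (y : Y) : (D.ch y).target ∈ 𝓝 (D.pr y) :=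
  (D.ch y).open_target.mem_nhds (D.pr_mem (D.mem_ch y))

theorem source_nhds (D : RD n Y) (y : Y) : (D.ch y).source ∈ 𝓝 y :=
  (D.ch y).open_source.mem_nhds (D.mem_ch y)

theorem tendsto_sec' (D : RD n Y) {z : E n} (hz : z ∈ (D.ch y).target) :
    Tendsto (D.sec y) (𝓝 z) (𝓝 (D.sec y z)) := (D.ch y).continuousAt_symm hz

theorem tendsto_sec (D : RD n Y) (y : Y) : Tendsto (D.sec y) (𝓝 (D.pr y)) (𝓝 y) := by
  have := D.tendsto_sec' (D.pr_mem (D.mem_ch y))
  rwa [D.sec_pr (D.mem_ch y)] at this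

/-- Every function is represented near any point of a chart by its chart expression. -/
theorem rep_sec' (D : RD n Y) (f : Y → ℂ) {p : Y} (hp : p ∈ (D.ch y).source) :
    f =ᶠ[𝓝 p] (f ∘ D.sec y) ∘ D.pr := by
  filter_upwards [(D.ch y).open_source.mem_nhds hp] with q hq
  simp [D.sec_pr hq]

theorem rep_sec (D : RD n Y) (f : Y → ℂ) (y : Y) : f =ᶠ[𝓝 y] (f ∘ D.sec y) ∘ D.pr :=
  D.rep_sec' f (D.mem_ch y)

theorem rep {F : E n → ℂ} (h : f =ᶠ[𝓝 y] F ∘ D.pr) : f ∘ D.sec y =ᶠ[𝓝 (D.pr y)] F := by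
  filter_upwards [(D.tendsto_sec y).eventually h, D.target_nhds y] with z hz hz'
  simp [hz, D.pr_sec hz']

theorem dX_rep {F : E n → ℂ} (h : f =ᶠ[𝓝 y] F ∘ D.pr) : D.dX ξ f y = eX ξ F (D.pr y) :=
  eX_congr (rep h)

theorem dX_rep_ev {F : E n → ℂ} (h : f =ᶠ[𝓝 y] F ∘ D.pr) :
    D.dX ξ f =ᶠ[𝓝 y] eX ξ F ∘ D.pr :=
  h.eventually_nhds.mono fun _ hp => dX_rep hp

theorem dX_sec (D : RD n Y) (f : Y → ℂ) {z : E n} (hz : z ∈ (D.ch y).target) :
    D.dX ξ f (D.sec y z) = eX ξ (f ∘ D.sec y) z := by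
  rw [dX_rep (D.rep_sec' f (D.sec_mem hz)), D.pr_sec hz]

theorem dX_congr (h : f =ᶠ[𝓝 y] g) : D.dX ξ f y = D.dX ξ g y :=
  dX_rep (h.trans (D.rep_sec g y))

theorem dX_congr_ev (h : f =ᶠ[𝓝 y] g) : D.dX ξ f =ᶠ[𝓝 y] D.dX ξ g :=
  h.eventually_nhds.mono fun _ hp => dX_congr hp

theorem sm_of_rep (h : ∀ y, ∃ F, ContDiffAt ℝ ∞ F (D.pr y) ∧ f =ᶠ[𝓝 y] F ∘ D.pr) : D.Sm f :=
  fun y => let ⟨_, h1, h2⟩ := h y; h1.congr_of_eventuallyEq (rep h2)

theorem hol_of_rep (h : ∀ y, ∃ F, DifferentiableAt ℂ F (D.pr y) ∧ f =ᶠ[𝓝 y] F ∘ D.pr) :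
    D.Hol f :=
  fun y => let ⟨_, h1, h2⟩ := h y; h1.congr_of_eventuallyEq (rep h2)

theorem Sm.rep (hf : D.Sm f) {F : E n → ℂ} (h : f =ᶠ[𝓝 y] F ∘ D.pr) :
    ContDiffAt ℝ ∞ F (D.pr y) := (hf y).congr_of_eventuallyEq (RD.rep h).symm

theorem Hol.rep (hf : D.Hol f) {F : E n → ℂ} (h : f =ᶠ[𝓝 y] F ∘ D.pr) :
    DifferentiableAt ℂ F (D.pr y) := (hf y).congr_of_eventuallyEq (RD.rep h).symm

theorem Sm.at_sec (hf : D.Sm f) {z : E n} (hz : z ∈ (D.ch y).target) :
    ContDiffAt ℝ ∞ (f ∘ D.sec y) z := by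
  have := hf.rep (D.rep_sec' f (D.sec_mem hz))
  rwa [D.pr_sec hz] at this

theorem Hol.at_sec (hf : D.Hol f) {z : E n} (hz : z ∈ (D.ch y).target) :
    DifferentiableAt ℂ (f ∘ D.sec y) z := by
  have := hf.rep (D.rep_sec' f (D.sec_mem hz))
  rwa [D.pr_sec hz] at this

theorem Sm.diff (hf : D.Sm f) (y : Y) : DifferentiableAt ℝ (f ∘ D.sec y) (D.pr y) :=
  (hf y).differentiableAt (by simp)

theorem Sm.continuous (hf : D.Sm f) : Continuous f :=
  continuous_iff_continuousAt.2 fun y =>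
    ((hf y).continuousAt.comp D.continuous_pr.continuousAt).congr (D.rep_sec f y).symm

theorem SmR.continuous (hφ : D.SmR φ) : Continuous φ := by
  have := continuous_re.comp (Sm.continuous hφ)
  simpa [Function.comp_def] using this

theorem Sm.dX (hf : D.Sm f) (ξ : E n × E n) : D.Sm (D.dX ξ f) :=
  sm_of_rep fun y => ⟨_, contDiffAt_eX (hf y), dX_rep_ev (D.rep_sec f y)⟩

theorem Sm.dz (hf : D.Sm f) (j : Fin n) : D.Sm (D.dz j f) := hf.dX _

theorem Sm.db (hf : D.Sm f) (j : Fin n) : D.Sm (D.db j f) := hf.dX _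

theorem sm_const (c : ℂ) : D.Sm fun _ => c := fun _ => contDiffAt_const

theorem sm_pr {F : E n → ℂ} (hF : ∀ y, ContDiffAt ℝ ∞ F (D.pr y)) : D.Sm fun y => F (D.pr y) :=
  sm_of_rep fun y => ⟨F, hF y, EventuallyEq.rfl⟩

theorem Sm.add (hf : D.Sm f) (hg : D.Sm g) : D.Sm fun y => f y + g y :=
  fun y => (hf y).add (hg y)

theorem Sm.sub (hf : D.Sm f) (hg : D.Sm g) : D.Sm fun y => f y - g y :=
  fun y => (hf y).sub (hg y)

theorem Sm.neg (hf : D.Sm f) : D.Sm fun y => -f y := fun y => (hf y).neg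

theorem Sm.mul (hf : D.Sm f) (hg : D.Sm g) : D.Sm fun y => f y * g y :=
  fun y => (hf y).mul (hg y)

theorem Sm.conj (hf : D.Sm f) : D.Sm fun y => conj (f y) :=
  fun y => conjCLE.contDiff.contDiffAt.comp _ (hf y)

theorem Sm.sum {ι : Type*} (s : Finset ι) {F : ι → Y → ℂ} (hF : ∀ i ∈ s, D.Sm (F i)) :
    D.Sm fun y => ∑ i ∈ s, F i y :=
  fun y => ContDiffAt.sum (f := fun i => F i ∘ D.sec y) fun i hi => hF i hi y

theorem Sm.comp (hf : D.Sm f) {G : ℂ → ℂ} (hG : ∀ y, ContDiffAt ℝ ∞ G (f y)) :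
    D.Sm fun y => G (f y) := fun y => by
  have h := hG y
  rw [← D.sec_pr (D.mem_ch y)] at h
  exact ContDiffAt.comp (g := G) (f := f ∘ D.sec y) (D.pr y) h (hf y)

theorem SmR.comp (hφ : D.SmR φ) {χ : ℝ → ℝ} (hχ : ∀ y, ContDiffAt ℝ ∞ χ (φ y)) :
    D.SmR fun y => χ (φ y) := by
  have := Sm.comp hφ (G := fun z => (χ z.re : ℂ)) fun y =>
    ofRealCLM.contDiff.contDiffAt.comp _ (ContDiffAt.comp (g := χ) (f := fun z : ℂ => z.re) _
      (by simpa using hχ y) reCLM.contDiff.contDiffAt)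
  simpa [SmR] using this

theorem smR_const (c : ℝ) : D.SmR fun _ => c := sm_const _

theorem SmR.add (hφ : D.SmR φ) (hψ : D.SmR ψ) : D.SmR fun y => φ y + ψ y := by
  simpa [SmR] using Sm.add hφ hψ

theorem SmR.sub (hφ : D.SmR φ) (hψ : D.SmR ψ) : D.SmR fun y => φ y - ψ y := by
  simpa [SmR] using Sm.sub hφ hψ

theorem SmR.neg (hφ : D.SmR φ) : D.SmR fun y => -φ y := by
  simpa [SmR] using Sm.neg hφ

theorem SmR.mul (hφ : D.SmR φ) (hψ : D.SmR ψ) : D.SmR fun y => φ y * ψ y := by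
  simpa [SmR] using Sm.mul hφ hψ

theorem SmR.sum {ι : Type*} (s : Finset ι) {F : ι → Y → ℝ} (hF : ∀ i ∈ s, D.SmR (F i)) :
    D.SmR fun y => ∑ i ∈ s, F i y := by
  simpa [SmR] using Sm.sum s hF

theorem SmR.exp (hφ : D.SmR φ) : D.SmR fun y => Real.exp (φ y) :=
  hφ.comp fun _ => Real.contDiff_exp.contDiffAt

theorem SmR.log (hφ : D.SmR φ) (h : ∀ y, φ y ≠ 0) : D.SmR fun y => Real.log (φ y) :=
  hφ.comp fun y => Real.contDiffAt_log.2 (h y)

theorem Sm.normSq (hf : D.Sm f) : D.SmR fun y => ‖f y‖ ^ 2 := by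
  have := hf.mul hf.conj
  simpa [SmR, mul_conj'] using this

theorem Sm.re (hf : D.Sm f) : D.SmR fun y => (f y).re :=
  hf.comp (G := fun z => (z.re : ℂ)) fun _ =>
    (ofRealCLM.contDiff.comp reCLM.contDiff).contDiffAt

theorem Hol.sm (hf : D.Hol f) : D.Sm f := fun y => by
  have h : ∀ᶠ z in 𝓝 (D.pr y), DifferentiableAt ℂ (f ∘ D.sec y) z :=
    Filter.mem_of_superset (D.target_nhds y) fun z hz => hf.at_sec hz
  exact ((P278F.analyticAt_of_eventually h).contDiffAt (n := ∞)).restrict_scalars ℝ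

theorem hol_const (c : ℂ) : D.Hol fun _ => c := fun _ => differentiableAt_const _

theorem hol_pr {F : E n → ℂ} (hF : ∀ y, DifferentiableAt ℂ F (D.pr y)) :
    D.Hol fun y => F (D.pr y) :=
  hol_of_rep fun y => ⟨F, hF y, EventuallyEq.rfl⟩

theorem hol_coord (D : RD n Y) (j : Fin n) : D.Hol fun y => D.pr y j :=
  hol_pr (F := fun z => z j) fun _ => by fun_prop

theorem Hol.add (hf : D.Hol f) (hg : D.Hol g) : D.Hol fun y => f y + g y :=
  fun y => (hf y).add (hg y)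

theorem Hol.sub (hf : D.Hol f) (hg : D.Hol g) : D.Hol fun y => f y - g y :=
  fun y => (hf y).sub (hg y)

theorem Hol.mul (hf : D.Hol f) (hg : D.Hol g) : D.Hol fun y => f y * g y :=
  fun y => (hf y).mul (hg y)

theorem Hol.sum {ι : Type*} (s : Finset ι) {F : ι → Y → ℂ} (hF : ∀ i ∈ s, D.Hol (F i)) :
    D.Hol fun y => ∑ i ∈ s, F i y :=
  fun y => DifferentiableAt.fun_sum (A := fun i => F i ∘ D.sec y) fun i hi => hF i hi y

theorem Hol.pow (hf : D.Hol f) (k : ℕ) : D.Hol fun y => f y ^ k := fun y => (hf y).pow k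

theorem Hol.inv (hf : D.Hol f) (h : ∀ y, f y ≠ 0) : D.Hol fun y => (f y)⁻¹ := fun y =>
  (hf y).inv (by simpa [D.sec_pr (D.mem_ch y)] using h y)

theorem Hol.db (hf : D.Hol f) (j : Fin n) (y : Y) : D.db j f y = 0 := by
  rw [RD.db, dX, eX_hol (hf y), bv_hol, map_zero]

theorem Hol.dz_eq (hf : D.Hol f) (j : Fin n) (y : Y) :
    D.dz j f y = fderiv ℂ (f ∘ D.sec y) (D.pr y) (Pi.single j 1) := by
  rw [RD.dz, dX, eX_hol (hf y), zv_hol]

theorem hol_of_db (hf : D.Sm f) (h : ∀ j y, D.db j f y = 0) : D.Hol f :=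
  fun y => differentiableAt_of_eX (hf.diff y) fun j => h j y

theorem dX_add (hf : D.Sm f) (hg : D.Sm g) (y : Y) :
    D.dX ξ (fun p => f p + g p) y = D.dX ξ f y + D.dX ξ g y := eX_add (hf.diff y) (hg.diff y)

theorem dX_mul (hf : D.Sm f) (hg : D.Sm g) (y : Y) :
    D.dX ξ (fun p => f p * g p) y = D.dX ξ f y * g y + f y * D.dX ξ g y := by
  have := eX_mul (ξ := ξ) (hf.diff y) (hg.diff y)
  simp only [Function.comp_apply, D.sec_pr (D.mem_ch y)] at this
  exact this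

theorem dX_const (c : ℂ) (y : Y) : D.dX ξ (fun _ => c) y = 0 := eX_const ξ c _

theorem dX_const_mul (hf : D.Sm f) (c : ℂ) (y : Y) :
    D.dX ξ (fun p => c * f p) y = c * D.dX ξ f y := by
  rw [dX_mul (sm_const c) hf, dX_const]; ring

theorem dX_neg (hf : D.Sm f) (y : Y) : D.dX ξ (fun p => -f p) y = -D.dX ξ f y := by
  simpa using dX_const_mul (ξ := ξ) hf (-1) y

theorem dX_sub (hf : D.Sm f) (hg : D.Sm g) (y : Y) :
    D.dX ξ (fun p => f p - g p) y = D.dX ξ f y - D.dX ξ g y := by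
  simp only [sub_eq_add_neg]
  rw [dX_add hf hg.neg, dX_neg hg]

theorem dX_sum {ι : Type*} (s : Finset ι) {F : ι → Y → ℂ} (hF : ∀ i ∈ s, D.Sm (F i)) (y : Y) :
    D.dX ξ (fun p => ∑ i ∈ s, F i p) y = ∑ i ∈ s, D.dX ξ (F i) y := by
  classical
  induction s using Finset.induction_on with
  | empty => simpa using dX_const (D := D) (ξ := ξ) 0 y
  | insert a s ha ih =>
    simp only [Finset.sum_insert ha]
    rw [dX_add (hF a (by simp)) (Sm.sum s fun i hi => hF i (by simp [hi])),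
      ih fun i hi => hF i (by simp [hi])]

theorem dX_vec_add (f : Y → ℂ) (y : Y) : D.dX (ξ + ζ) f y = D.dX ξ f y + D.dX ζ f y := by
  simp only [dX, eX, Prod.fst_add, Prod.snd_add, map_add]; ring

theorem dX_vec_neg (f : Y → ℂ) (y : Y) : D.dX (-ξ) f y = -D.dX ξ f y := by
  simp only [dX, eX, Prod.fst_neg, Prod.snd_neg, map_neg]; ring

theorem dX_vec_sub (f : Y → ℂ) (y : Y) : D.dX (ξ - ζ) f y = D.dX ξ f y - D.dX ζ f y := by
  rw [sub_eq_add_neg, dX_vec_add, dX_vec_neg, sub_eq_add_neg]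

theorem dX_vec_zero (f : Y → ℂ) (y : Y) : D.dX 0 f y = 0 := by simp [dX, eX]

theorem dX_comm (hf : D.Sm f) (y : Y) : D.dX ξ (D.dX ζ f) y = D.dX ζ (D.dX ξ f) y := by
  rw [dX_rep (dX_rep_ev (D.rep_sec f y)), dX_rep (dX_rep_ev (D.rep_sec f y)), eX_comm (hf y)]

theorem conj_dz (f : Y → ℂ) (j : Fin n) (y : Y) :
    conj (D.dz j f y) = D.db j (fun p => conj (f p)) y := by
  rw [dz, dX, conj_eX, zv_conj]; rfl

theorem conj_db (f : Y → ℂ) (j : Fin n) (y : Y) :
    conj (D.db j f y) = D.dz j (fun p => conj (f p)) y := by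
  rw [db, dX, conj_eX, bv_conj]; rfl

theorem conj_dz_real (φ : Y → ℝ) (j : Fin n) (y : Y) :
    conj (D.dz j (fun p => (φ p : ℂ)) y) = D.db j (fun p => (φ p : ℂ)) y := by
  simp [conj_dz]

theorem conj_db_real (φ : Y → ℝ) (j : Fin n) (y : Y) :
    conj (D.db j (fun p => (φ p : ℂ)) y) = D.dz j (fun p => (φ p : ℂ)) y := by
  simp [conj_db]

theorem Hol.dz_conj (hf : D.Hol f) (j : Fin n) (y : Y) :
    D.dz j (fun p => conj (f p)) y = 0 := by
  rw [← conj_db, hf.db, map_zero]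

theorem Hol.dz (hf : D.Hol f) (j : Fin n) : D.Hol (D.dz j f) :=
  hol_of_db (hf.sm.dz j) fun k y => by
    rw [RD.db, RD.dz, dX_comm hf.sm]
    have : D.dX (bv k) f = fun _ => 0 := funext (hf.db k)
    rw [this, dX_const]

/-- Chain rule for a real function of a real function. -/
theorem dX_comp (hφ : D.SmR φ) {χ : ℝ → ℝ} {c : ℝ} (hχ : HasDerivAt χ c (φ y)) :
    D.dX ξ (fun p => (χ (φ p) : ℂ)) y = c * D.dX ξ (fun p => (φ p : ℂ)) y := by
  have h0 := (Sm.diff hφ y).hasFDerivAt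
  set L := fderiv ℝ ((fun p => (φ p : ℂ)) ∘ D.sec y) (D.pr y) with hL
  have h1 : HasFDerivAt (φ ∘ D.sec y) (reCLM.comp L) (D.pr y) := by
    have := reCLM.hasFDerivAt.comp _ h0
    simpa [Function.comp_def] using this
  have h2 : HasFDerivAt ((fun p => (φ p : ℂ)) ∘ D.sec y) (ofRealCLM.comp (reCLM.comp L))
      (D.pr y) := ofRealCLM.hasFDerivAt.comp _ h1
  have h3 : ofRealCLM.comp (reCLM.comp L) = L := h2.unique h0
  have hχ' : HasDerivAt χ c ((φ ∘ D.sec y) (D.pr y)) := by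
    simpa [D.sec_pr (D.mem_ch y)] using hχ
  have h4 := ofRealCLM.hasFDerivAt.comp _ (hχ'.comp_hasFDerivAt _ h1)
  have h5 : fderiv ℝ ((fun p => (χ (φ p) : ℂ)) ∘ D.sec y) (D.pr y) =
      ofRealCLM.comp (c • reCLM.comp L) := h4.fderiv
  have h6 : ∀ v, ((L v).re : ℂ) = L v := fun v => by
    simpa using congrArg (fun T : E n →L[ℝ] ℂ => T v) h3
  simp only [dX, eX, h5, ← hL]
  simp [h6]; ring

theorem dX_exp (hφ : D.SmR φ) (y : Y) :
    D.dX ξ (fun p => (Real.exp (φ p) : ℂ)) y =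
      Real.exp (φ y) * D.dX ξ (fun p => (φ p : ℂ)) y :=
  dX_comp hφ (Real.hasDerivAt_exp _)

theorem dX_exp_neg (hφ : D.SmR φ) (y : Y) :
    D.dX ξ (fun p => (Real.exp (-φ p) : ℂ)) y =
      -(Real.exp (-φ y) * D.dX ξ (fun p => (φ p : ℂ)) y) := by
  have h : HasDerivAt (fun t => Real.exp (-t)) (-Real.exp (-φ y)) (φ y) := by
    simpa using (hasDerivAt_neg (φ y)).exp
  rw [dX_comp hφ h]; push_cast; ring

theorem dX_coord (D : RD n Y) (ξ : E n × E n) (j : Fin n) (y : Y) :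
    D.dX ξ (fun p => D.pr p j) y = ξ.1 j + I * ξ.2 j := by
  rw [dX_rep (f := fun p => D.pr p j) (F := fun z => z j) EventuallyEq.rfl, eX_hol (by fun_prop)]
  have : fderiv ℂ (fun z : E n => z j) (D.pr y) = ContinuousLinearMap.proj j :=
    (ContinuousLinearMap.proj (R := ℂ) (φ := fun _ : Fin n => ℂ) j).fderiv
  simp [this]

theorem dz_coord (D : RD n Y) (j k : Fin n) (y : Y) :
    D.dz j (fun p => D.pr p k) y = if k = j then 1 else 0 := by
  have := congrFun (zv_hol j) k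
  rw [dz, dX_coord]
  simpa [Pi.single_apply] using this

theorem dX_of_notMem (h : y ∉ tsupport f) : D.dX ξ f y = 0 := by
  rw [dX_congr (notMem_tsupport_iff_eventuallyEq.1 h)]
  exact dX_const 0 y

theorem tsupport_dX (f : Y → ℂ) : tsupport (D.dX ξ f) ⊆ tsupport f :=
  closure_minimal (fun _ hy => by_contra fun h => hy (dX_of_notMem h)) (isClosed_tsupport f)

theorem Test.continuous (hf : D.Test f) : Continuous f := hf.1.continuous

theorem test_zero : D.Test fun _ => 0 := ⟨sm_const 0, HasCompactSupport.zero⟩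

theorem Test.dX (hf : D.Test f) (ξ : E n × E n) : D.Test (D.dX ξ f) :=
  ⟨hf.1.dX ξ, hf.2.of_isClosed_subset (isClosed_tsupport _) (tsupport_dX f)⟩

theorem Test.dz (hf : D.Test f) (j : Fin n) : D.Test (D.dz j f) := hf.dX _

theorem Test.db (hf : D.Test f) (j : Fin n) : D.Test (D.db j f) := hf.dX _

theorem Test.add (hf : D.Test f) (hg : D.Test g) : D.Test fun y => f y + g y :=
  ⟨hf.1.add hg.1, hf.2.add hg.2⟩

theorem Test.mul (hf : D.Test f) (hg : D.Sm g) : D.Test fun y => f y * g y :=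
  ⟨hf.1.mul hg, hf.2.mul_right⟩

theorem Sm.mul_test (hf : D.Sm f) (hg : D.Test g) : D.Test fun y => f y * g y :=
  ⟨hf.mul hg.1, hg.2.mul_left⟩

theorem Test.neg (hf : D.Test f) : D.Test fun y => -f y := by
  simpa using (sm_const (-1)).mul_test hf

theorem Test.sub (hf : D.Test f) (hg : D.Test g) : D.Test fun y => f y - g y := by
  simpa [sub_eq_add_neg] using hf.add hg.neg

theorem Test.conj (hf : D.Test f) : D.Test fun y => conj (f y) :=
  ⟨hf.1.conj, hf.2.comp_left (g := conj) (map_zero _)⟩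

theorem Test.sum {ι : Type*} (s : Finset ι) {F : ι → Y → ℂ} (hF : ∀ i ∈ s, D.Test (F i)) :
    D.Test fun y => ∑ i ∈ s, F i y := by
  classical
  induction s using Finset.induction_on with
  | empty => simpa using test_zero (D := D)
  | insert a s ha ih =>
    simp only [Finset.sum_insert ha]
    exact (hF a (by simp)).add (ih fun i hi => hF i (by simp [hi]))

theorem Test.Ts (hφ : D.SmR φ) {α : Fin n → Y → ℂ} (hα : ∀ j, D.Test (α j)) :
    D.Test (D.Ts φ α) :=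
  Test.sum _ fun j _ => ((Sm.dz hφ j).mul_test (hα j)).sub ((hα j).dz j)

end RD

end Vale.Agent.P271A
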