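import Vale.Agent.P271A.XDefs
import Vale.Agent.P271.Dist

/-! P271A: the cyclic cover. -/

open MeasureTheory Filter Topology Set
open scoped ContDiff ENNReal ComplexConjugate

noncomputable section

namespace Vale.Agent.P271A

open Vale.Agent.P271

variable {n : ℕ} {X : Type} [TopologicalSpace X] [T2Space X] [CompactSpace X]
  [MeasurableSpace X] [BorelSpace X]

theorem secondCountable_of_atl (A : Atl n X) : SecondCountableTopology X := by
  have : ∀ a, SecondCountableTopology (A.e a).source :=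
    fun a => (A.e a).secondCountableTopology_source
  exact TopologicalSpace.secondCountableTopology_of_countable_cover
    (fun a => (A.e a).open_source) (eq_univ_of_forall fun p => mem_iUnion.2 (A.cover p))

theorem cova_isolated {k : ℕ} (hk : 0 < k) : ∀ᶠ w in 𝓝 (1 : ℂ), w ^ k = 1 → w = 1 := by
  have : NeZero k := ⟨hk.ne'⟩
  have hζ := Complex.isPrimitiveRoot_exp k hk.ne'
  have hfin : ({w : ℂ | w ^ k = 1} \ {1}).Finite := by
    refine ((finite_lt_nat k).image
      fun i => Complex.exp (2 * Real.pi * Complex.I / k) ^ i).subset fun w hw => ?_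
    obtain ⟨i, hi, h⟩ := hζ.eq_pow_of_pow_eq_one hw.1
    exact ⟨i, hi, h⟩
  filter_upwards [hfin.isClosed.isOpen_compl.mem_nhds (x := 1) fun h => h.2 rfl] with w hw h
  by_contra h1
  exact hw ⟨h, h1⟩

section

omit [T2Space X] [CompactSpace X] [BorelSpace X]

theorem cova_contAt {A : Atl n X} {a : A.ι} {f : X → ℂ} {p : X} (hp : p ∈ (A.e a).source)
    (h : AnalyticAt ℂ (A.loc a f) (A.e a p)) : ContinuousAt f p :=
  (h.continuousAt.comp ((A.e a).continuousAt hp)).congr (A.api_rep a f hp).symm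

theorem cova_div {A : Atl n X} {u : A.ι → X → ℂ} (hu : A.IsGauge u) {a b : A.ι} {p : X}
    (ha : p ∈ (A.e a).source) (hb : p ∈ (A.e b).source) :
    ContinuousAt (fun p => u a p / u b p) p :=
  cova_contAt ha (hu.hol a b _ ⟨(A.e a).map_source ha, by
    rw [mem_preimage, (A.e a).left_inv ha]; exact hb⟩)

theorem cova_exists_rho (M : Model n X) (p : X) : ∃ a, M.ρ a p ≠ 0 ∧ p ∈ (M.e a).source := by
  by_contra h
  push Not at h
  have h1 := M.ρ_sum p
  rw [Finset.sum_eq_zero fun a _ => by_contra fun h2 =>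
    h a h2 (M.ρ_supp a (subset_tsupport _ h2))] at h1
  exact zero_ne_one h1

variable (M : Model n X) (u : M.ι → X → ℂ) (k : ℕ) (σ : X → ℂ) (O : Set X)

/-- The total space of the cover. -/
abbrev covaY : Type := {q : X × (M.ι → ℂ) // q.1 ∈ O ∧
  ∃ t : ℂ, t ^ k = σ q.1 ∧ ∀ a, q.2 a = M.ρ a q.1 * u a q.1 * t}

variable {M u k σ O}

/-- The tautological root. -/
def covaT (q : covaY M u k σ O) : ℂ := q.2.2.choose

theorem covaT_pow (q : covaY M u k σ O) : covaT q ^ k = σ q.1.1 := q.2.2.choose_spec.1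

theorem covaT_co (q : covaY M u k σ O) (a : M.ι) :
    q.1.2 a = M.ρ a q.1.1 * u a q.1.1 * covaT q := q.2.2.choose_spec.2 a

theorem cova_ext {q q' : covaY M u k σ O} (h1 : q.1.1 = q'.1.1) (h2 : covaT q = covaT q') :
    q = q' :=
  Subtype.ext (Prod.ext h1 (funext fun a => by rw [covaT_co, covaT_co, h1, h2]))

theorem covaT_eq (hu : M.IsGauge u) (q : covaY M u k σ O) {s : ℂ}
    (h : ∀ a, q.1.2 a = M.ρ a q.1.1 * u a q.1.1 * s) : covaT q = s := by
  obtain ⟨a, h1, h2⟩ := cova_exists_rho M q.1.1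
  have h3 := h a
  rw [covaT_co] at h3
  exact mul_left_cancel₀ (mul_ne_zero (Complex.ofReal_ne_zero.2 h1) (hu.ne a _ h2)) h3

/-- The point defined by a root. -/
def covaMk (p : X) (hp : p ∈ O) (s : ℂ) (hs : s ^ k = σ p) : covaY M u k σ O :=
  ⟨(p, fun a => M.ρ a p * u a p * s), hp, s, hs, fun _ => rfl⟩

theorem covaT_mk (hu : M.IsGauge u) (p : X) (hp : p ∈ O) (s : ℂ) (hs : s ^ k = σ p) :
    covaT (covaMk p hp s hs : covaY M u k σ O) = s := covaT_eq hu _ fun _ => rfl

theorem cova_cont_pi : Continuous fun q : covaY M u k σ O => q.1.1 :=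
  continuous_fst.comp continuous_subtype_val

theorem cova_cont (hu : M.IsGauge u) {a : M.ι} {q : covaY M u k σ O}
    (hq : q.1.1 ∈ (M.e a).source) :
    ContinuousAt (fun q : covaY M u k σ O => u a q.1.1 * covaT q) q := by
  obtain ⟨b, h1, h2⟩ := cova_exists_rho M q.1.1
  have hρ : Continuous fun q : covaY M u k σ O => (M.ρ b q.1.1 : ℂ) :=
    Complex.continuous_ofReal.comp ((M.ρ_sm b).continuous.comp cova_cont_pi)
  have hc : Continuous fun q : covaY M u k σ O => q.1.2 b :=
    (continuous_apply b).comp (continuous_snd.comp continuous_subtype_val)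
  have h3 : ContinuousAt (fun q : covaY M u k σ O =>
      u a q.1.1 / u b q.1.1 * q.1.2 b / (M.ρ b q.1.1 : ℂ)) q :=
    ((ContinuousAt.comp (f := fun q : covaY M u k σ O => q.1.1) (cova_div hu hq h2)
      cova_cont_pi.continuousAt).mul hc.continuousAt).div hρ.continuousAt
      (Complex.ofReal_ne_zero.2 h1)
  refine h3.congr ?_
  filter_upwards [hρ.continuousAt.eventually_ne (Complex.ofReal_ne_zero.2 h1),
    cova_cont_pi.continuousAt.eventually ((M.e b).open_source.mem_nhds h2)] with w hw hw'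
  have := hu.ne b _ hw'
  rw [covaT_co]
  field_simp

theorem cova_lift (hu : M.IsGauge u) {Z : Type} [TopologicalSpace Z] {g : Z → covaY M u k σ O}
    {z : Z} {a : M.ι} (h1 : ContinuousAt (fun z => (g z).1.1) z)
    (ha : (g z).1.1 ∈ (M.e a).source)
    (h2 : ContinuousAt (fun z => u a (g z).1.1 * covaT (g z)) z) : ContinuousAt g z := by
  refine IsInducing.subtypeVal.continuousAt_iff.2
    (ContinuousAt.prodMk h1 (continuousAt_pi.2 fun b => ?_))
  have hρ : ContinuousAt (fun z => (M.ρ b (g z).1.1 : ℂ)) z :=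
    (Complex.continuous_ofReal.comp (M.ρ_sm b).continuous).continuousAt.comp h1
  by_cases hb : (g z).1.1 ∈ (M.e b).source
  · have h3 : ContinuousAt (fun z => (M.ρ b (g z).1.1 : ℂ) * (u b (g z).1.1 / u a (g z).1.1) *
        (u a (g z).1.1 * covaT (g z))) z :=
      (hρ.mul (ContinuousAt.comp (f := fun z => (g z).1.1) (cova_div hu hb ha) h1)).mul h2
    refine h3.congr ?_
    filter_upwards [h1.eventually ((M.e a).open_source.mem_nhds ha)] with w hw
    have := hu.ne a _ hw
    change _ = (g w).1.2 b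
    rw [covaT_co]
    field_simp
  · have h3 := notMem_tsupport_iff_eventuallyEq.1 fun h => hb (M.ρ_supp b h)
    refine (continuousAt_const (y := (0 : ℂ))).congr ?_
    filter_upwards [h1.eventually h3] with w hw
    change _ = (g w).1.2 b
    rw [covaT_co, hw, Pi.zero_apply, Complex.ofReal_zero, zero_mul, zero_mul]

/-- Multiplication of the root by a root of unity. -/
def covaRot (c : ℂ) (hc : c ^ k = 1) (q : covaY M u k σ O) : covaY M u k σ O :=
  ⟨(q.1.1, c • q.1.2), q.2.1, c * covaT q, by rw [mul_pow, hc, one_mul, covaT_pow], fun a => by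
    change c * q.1.2 a = _
    rw [covaT_co]; ring⟩

theorem covaT_rot (hu : M.IsGauge u) (c : ℂ) (hc : c ^ k = 1) (q : covaY M u k σ O) :
    covaT (covaRot c hc q) = c * covaT q :=
  covaT_eq hu _ fun a => by
    change c * q.1.2 a = M.ρ a q.1.1 * u a q.1.1 * _
    rw [covaT_co]; ring

theorem cova_cont_rot (c : ℂ) (hc : c ^ k = 1) :
    Continuous (covaRot c hc : covaY M u k σ O → covaY M u k σ O) :=
  Continuous.subtype_mk (cova_cont_pi.prodMk
    ((continuous_snd.comp continuous_subtype_val).const_smul c)) _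

/-- The deck transformation. -/
def covaTau (hu : M.IsGauge u) (c : ℂ) (hc : c ^ k = 1) (h0 : c ≠ 0) :
    covaY M u k σ O ≃ₜ covaY M u k σ O where
  toFun := covaRot c hc
  invFun := covaRot c⁻¹ (by rw [inv_pow, hc, inv_one])
  left_inv q := cova_ext rfl (by rw [covaT_rot hu, covaT_rot hu, inv_mul_cancel_left₀ h0])
  right_inv q := cova_ext rfl (by rw [covaT_rot hu, covaT_rot hu, mul_inv_cancel_left₀ h0])
  continuous_toFun := cova_cont_rot _ _
  continuous_invFun := cova_cont_rot _ _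

theorem cova_iter (hu : M.IsGauge u) (c : ℂ) (hc : c ^ k = 1) (h0 : c ≠ 0) (i : ℕ)
    (q : covaY M u k σ O) : ((covaTau hu c hc h0)^[i] q).1.1 = q.1.1 ∧
      covaT ((covaTau hu c hc h0)^[i] q) = c ^ i * covaT q := by
  induction i with
  | zero => simp
  | succ i ih =>
    rw [Function.iterate_succ_apply']
    refine ⟨ih.1, ?_⟩
    change covaT (covaRot c hc _) = _
    rw [covaT_rot hu, ih.2, pow_succ]; ring

theorem cova_lh (hu : M.IsGauge u) (hk : 0 < k) (hσ : σ ∈ M.H0 (u ^ k)) (hO : IsOpen O)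
    (h : ∀ p ∈ O, σ p ≠ 0) : IsLocalHomeomorph fun q : covaY M u k σ O => q.1.1 := by
  classical
  refine IsLocalHomeomorph.mk _ fun q0 => ?_
  obtain ⟨a, ha⟩ := M.cover q0.1.1
  set S : X → ℂ := fun p => u a p ^ k * σ p with hS
  have hSc : ∀ p ∈ (M.e a).source, ContinuousAt S p := fun p hp =>
    cova_contAt hp (hσ a _ ((M.e a).map_source hp))
  have hSne : ∀ p ∈ O, p ∈ (M.e a).source → S p ≠ 0 := fun p hp hp' =>
    mul_ne_zero (pow_ne_zero _ (hu.ne a p hp')) (h p hp)
  have hθ : ∀ q : covaY M u k σ O, (u a q.1.1 * covaT q) ^ k = S q.1.1 := fun q => by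
    rw [mul_pow, covaT_pow]
  have hS0 := hSne _ q0.2.1 ha
  set R : X → ℂ := fun p => u a q0.1.1 * covaT q0 *
    Complex.exp (Complex.log (S p / S q0.1.1) / k) with hR
  set V : Set X := {p | (p ∈ O ∧ p ∈ (M.e a).source) ∧ S p / S q0.1.1 ∈ Complex.slitPlane} with hV
  have hVo : IsOpen V := isOpen_iff_mem_nhds.2 fun p hp =>
    inter_mem ((hO.inter (M.e a).open_source).mem_nhds hp.1)
      (((hSc p hp.1.2).div_const _).preimage_mem_nhds (Complex.isOpen_slitPlane.mem_nhds hp.2))
  have hRc : ∀ p ∈ V, ContinuousAt R p := fun p hp =>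
    continuousAt_const.mul ((((hSc p hp.1.2).div_const _).clog hp.2).div_const _).cexp
  have hRk : ∀ p ∈ V, R p ^ k = S p := fun p hp => by
    have hk' : (k : ℂ) ≠ 0 := Nat.cast_ne_zero.2 hk.ne'
    rw [hR, mul_pow, hθ, ← Complex.exp_nat_mul, mul_div_cancel₀ _ hk',
      Complex.exp_log (Complex.slitPlane_ne_zero hp.2), mul_div_cancel₀ _ hS0]
  have hRne : ∀ p ∈ V, R p ≠ 0 := fun p hp h0 => by
    have := hRk p hp
    rw [h0, zero_pow hk.ne'] at this
    exact hSne p hp.1.1 hp.1.2 this.symm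
  have hroot : ∀ p ∈ V, (R p / u a p) ^ k = σ p := fun p hp => by
    rw [div_pow, hRk p hp, hS, mul_div_cancel_left₀ _ (pow_ne_zero _ (hu.ne a p hp.1.2))]
  set g : X → covaY M u k σ O := fun p =>
    if hp : p ∈ V then covaMk p hp.1.1 (R p / u a p) (hroot p hp) else q0 with hg
  have hg1 : ∀ p ∈ V, (g p).1.1 = p := fun p hp => by
    simp only [hg, dif_pos hp]; rfl
  have hg2 : ∀ p ∈ V, u a (g p).1.1 * covaT (g p) = R p := fun p hp => by
    rw [hg1 p hp]
    simp only [hg, dif_pos hp]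
    rw [covaT_mk hu, mul_div_cancel₀ _ (hu.ne a p hp.1.2)]
  set W : Set (covaY M u k σ O) := {q | q.1.1 ∈ V ∧ u a q.1.1 * covaT q = R q.1.1} with hW
  have hWo : IsOpen W := isOpen_iff_mem_nhds.2 fun q hq => by
    have h1 : ContinuousAt (fun q : covaY M u k σ O => u a q.1.1 * covaT q / R q.1.1) q :=
      (cova_cont hu hq.1.1.2).div (ContinuousAt.comp (f := fun q : covaY M u k σ O => q.1.1)
        (hRc _ hq.1) cova_cont_pi.continuousAt) (hRne _ hq.1)
    have h2 : Tendsto (fun q : covaY M u k σ O => u a q.1.1 * covaT q / R q.1.1) (𝓝 q) (𝓝 1) := by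
      have h3 := h1.tendsto
      rwa [hq.2, div_self (hRne _ hq.1)] at h3
    filter_upwards [h2.eventually (cova_isolated hk),
      cova_cont_pi.continuousAt.eventually (hVo.mem_nhds hq.1)] with w hw hw'
    refine ⟨hw', (div_eq_one_iff_eq (hRne _ hw')).1 (hw ?_)⟩
    rw [div_pow, hθ, hRk _ hw', div_self (hSne _ hw'.1.1 hw'.1.2)]
  have hq0V : q0.1.1 ∈ V := ⟨⟨q0.2.1, ha⟩, by rw [div_self hS0]; exact Complex.one_mem_slitPlane⟩
  refine ⟨{ toFun := fun q => q.1.1
            invFun := g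
            source := W
            target := V
            map_source' := fun q hq => hq.1
            map_target' := fun p hp => ⟨by rw [hg1 p hp]; exact hp, by rw [hg2 p hp, hg1 p hp]⟩
            left_inv' := fun q hq => cova_ext (hg1 _ hq.1) ?_
            right_inv' := hg1
            open_source := hWo
            open_target := hVo
            continuousOn_toFun := cova_cont_pi.continuousOn
            continuousOn_invFun := fun p hp => ContinuousAt.continuousWithinAt ?_ },
    ⟨hq0V, ?_⟩, fun _ _ => rfl⟩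
  · have h1 := hg2 _ hq.1
    rw [hg1 _ hq.1, ← hq.2] at h1
    exact mul_left_cancel₀ (hu.ne a _ hq.1.1.2) h1
  · refine cova_lift hu (a := a) (continuousAt_id.congr ?_) (by rw [hg1 p hp]; exact hp.1.2)
      ((hRc p hp).congr ?_)
    · filter_upwards [hVo.mem_nhds hp] with w hw using (hg1 w hw).symm
    · filter_upwards [hVo.mem_nhds hp] with w hw using (hg2 w hw).symm
  · simp only [hR]
    rw [div_self hS0, Complex.log_one, zero_div, Complex.exp_zero, mul_one]

end

omit [MeasurableSpace X] [BorelSpace X] in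
theorem cova_proper {Y : Type} [TopologicalSpace Y] {π : Y → X} (lh : IsLocalHomeomorph π)
    {τ : Y → Y} (hτ : Continuous τ) {k : ℕ} (fiber : ∀ q q', π q = π q' → ∃ i < k, q' = τ^[i] q)
    {K : Set X} (hK : IsCompact K) (hKr : K ⊆ range π) : IsCompact (π ⁻¹' K) := by
  have key : ∃ C, IsCompact C ∧ π ⁻¹' K ⊆ C := by
    refine hK.induction_on (p := fun s => ∃ C, IsCompact C ∧ π ⁻¹' s ⊆ C)
      ⟨∅, isCompact_empty, subset_rfl⟩ ?_ ?_ ?_
    · rintro s t hst ⟨C, h1, h2⟩
      exact ⟨C, h1, (preimage_mono hst).trans h2⟩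
    · rintro s t ⟨C, h1, h2⟩ ⟨C', h3, h4⟩
      exact ⟨C ∪ C', h1.union h3, union_subset_union h2 h4⟩
    · intro x hx
      obtain ⟨q0, rfl⟩ := hKr hx
      obtain ⟨e, he, hπ⟩ := lh q0
      have h1 : e.target ∈ 𝓝 (π q0) := e.open_target.mem_nhds (hπ ▸ e.map_source he)
      obtain ⟨N, hN, hNt, hNc⟩ := local_compact_nhds h1
      refine ⟨N, mem_nhdsWithin_of_mem_nhds hN, ⋃ i ∈ {i | i < k}, τ^[i] '' (e.symm '' N),
        (finite_lt_nat k).isCompact_biUnion fun i _ =>
          (hNc.image_of_continuousOn (e.continuousOn_symm.mono hNt)).image (hτ.iterate i),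
        fun q hq => ?_⟩
      obtain ⟨i, hi, h2⟩ := fiber (e.symm (π q)) q (by
        have := e.right_inv (hNt hq)
        rwa [← hπ] at this)
      exact mem_biUnion hi ⟨_, ⟨_, hq, rfl⟩, h2.symm⟩
  obtain ⟨C, h1, h2⟩ := key
  exact h1.of_isClosed_subset (hK.isClosed.preimage lh.continuous) h2

theorem exists_kum (M : Model n X) {u : M.ι → X → ℂ} (hu : M.IsGauge u) {k : ℕ} (hk : 0 < k)
    {σ : X → ℂ} (hσ : σ ∈ M.H0 (u ^ k)) {O : Set X} (hO : IsOpen O) (h : ∀ p ∈ O, σ p ≠ 0) :
    Nonempty (Kum M.toAtl u k σ O) := by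
  have : NeZero k := ⟨hk.ne'⟩
  have hsc := secondCountable_of_atl M.toAtl
  have hζ := Complex.isPrimitiveRoot_exp k hk.ne'
  set ζ := Complex.exp (2 * Real.pi * Complex.I / k) with hζd
  have h0 : ζ ≠ 0 := Complex.exp_ne_zero _
  have hne : ∀ q : covaY M u k σ O, covaT q ≠ 0 := fun q hq => by
    have h1 := covaT_pow q
    rw [hq, zero_pow hk.ne'] at h1
    exact h _ q.2.1 h1.symm
  have hrange : range (fun q : covaY M u k σ O => q.1.1) = O := by
    refine Subset.antisymm ?_ fun p hp => ?_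
    · rintro _ ⟨q, rfl⟩
      exact q.2.1
    · obtain ⟨s, hs⟩ := IsAlgClosed.exists_pow_nat_eq (σ p) hk
      exact ⟨covaMk p hp s hs, rfl⟩
  have hfib : ∀ q q' : covaY M u k σ O, q.1.1 = q'.1.1 →
      ∃ i < k, q' = (covaTau hu ζ hζ.pow_eq_one h0)^[i] q := by
    intro q q' hqq
    have h1 : (covaT q' / covaT q) ^ k = 1 := by
      rw [div_pow, covaT_pow, covaT_pow, hqq, div_self (h _ q'.2.1)]
    obtain ⟨i, hi, h2⟩ := hζ.eq_pow_of_pow_eq_one h1
    obtain ⟨h3, h4⟩ := cova_iter hu ζ hζ.pow_eq_one h0 i q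
    exact ⟨i, hi, cova_ext (by rw [h3, hqq]) (by rw [h4, h2, div_mul_cancel₀ _ (hne q)])⟩
  have lh := cova_lh hu hk hσ hO h
  exact ⟨{
    Y := covaY M u k σ O
    sc := IsEmbedding.subtypeVal.secondCountableTopology
    π := fun q => q.1.1
    lh := lh
    range_π := hrange
    t := covaT
    t_pow := covaT_pow
    t_ne := hne
    cont := fun a q hq => (cova_cont hu hq).continuousWithinAt
    τ := covaTau hu ζ hζ.pow_eq_one h0
    π_τ := fun _ => rfl
    τ_per := fun q => by
      obtain ⟨h3, h4⟩ := cova_iter hu ζ hζ.pow_eq_one h0 k q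
      exact cova_ext h3 (by rw [h4, hζ.pow_eq_one, one_mul])
    fiber := hfib
    free := fun q i hi j hj hij => by
      have h1 := (cova_iter hu ζ hζ.pow_eq_one h0 i q).2
      rw [hij, (cova_iter hu ζ hζ.pow_eq_one h0 j q).2] at h1
      exact (hζ.pow_inj hj hi (mul_right_cancel₀ (hne q) h1)).symm
    proper := fun K hK hKO =>
      cova_proper lh (covaTau hu ζ hζ.pow_eq_one h0).continuous hfib hK (hrange.symm ▸ hKO) }⟩

end Vale.Agent.P271A
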