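import Mathlib

/-! P271 (analytic half): Riemann domains over complex affine space and their calculus. -/

open MeasureTheory Filter Topology Set Complex
open scoped ContDiff ENNReal ComplexConjugate

namespace Vale.Agent.P271A

/-- Complex affine space with the sup norm (balls are polydiscs). -/
abbrev E (n : ℕ) : Type := Fin n → ℂ

/-- A Riemann domain: a local homeomorphism to affine space, with the pulled back volume. -/
structure RD (n : ℕ) (Y : Type) [TopologicalSpace Y] [MeasurableSpace Y] where
  pr : Y → E n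
  lh : IsLocalHomeomorph pr
  μ : Measure Y
  hμ : ∀ U : Set Y, IsOpen U → InjOn pr U → ∀ A, A ⊆ U → MeasurableSet A →
    μ A = volume (pr '' A)

/-- The constant complex vector field of the holomorphic derivative. -/
noncomputable def zv {n : ℕ} (j : Fin n) : E n × E n :=
  (Pi.single j (1 / 2), Pi.single j (-I / 2))

/-- The constant complex vector field of the antiholomorphic derivative. -/
noncomputable def bv {n : ℕ} (j : Fin n) : E n × E n :=
  (Pi.single j (1 / 2), Pi.single j (I / 2))

/-- Derivative of a function on affine space along a constant complex vector field. -/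
noncomputable def eX {n : ℕ} (ξ : E n × E n) (F : E n → ℂ) (z : E n) : ℂ :=
  fderiv ℝ F z ξ.1 + I * fderiv ℝ F z ξ.2

namespace RD

variable {n : ℕ} {Y : Type} [TopologicalSpace Y] [MeasurableSpace Y] (D : RD n Y)

/-- The chart at a point; as a function it is the projection. -/
noncomputable def ch (y : Y) : OpenPartialHomeomorph Y (E n) := (D.lh y).choose

/-- The local inverse of the projection at a point. -/
noncomputable def sec (y : Y) : E n → Y := (D.ch y).symm

/-- Derivative along a constant complex vector field. -/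
noncomputable def dX (ξ : E n × E n) (f : Y → ℂ) (y : Y) : ℂ := eX ξ (f ∘ D.sec y) (D.pr y)

/-- Holomorphic derivative. -/
noncomputable def dz (j : Fin n) (f : Y → ℂ) : Y → ℂ := D.dX (zv j) f

/-- Antiholomorphic derivative. -/
noncomputable def db (j : Fin n) (f : Y → ℂ) : Y → ℂ := D.dX (bv j) f

/-- Smooth functions. -/
def Sm (f : Y → ℂ) : Prop := ∀ y, ContDiffAt ℝ ∞ (f ∘ D.sec y) (D.pr y)

/-- Smooth real functions. -/
def SmR (f : Y → ℝ) : Prop := D.Sm fun y => (f y : ℂ)

/-- Holomorphic functions. -/
def Hol (f : Y → ℂ) : Prop := ∀ y, DifferentiableAt ℂ (f ∘ D.sec y) (D.pr y)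

/-- Test functions. -/
def Test (f : Y → ℂ) : Prop := D.Sm f ∧ HasCompactSupport f

/-- The Levi form of a real function. -/
noncomputable def levi (φ : Y → ℝ) (y : Y) (v : Fin n → ℂ) : ℝ :=
  (∑ j, ∑ k, D.dz j (D.db k fun p => (φ p : ℂ)) y * v j * conj (v k)).re

/-- The holomorphic differential of a real function on a vector. -/
noncomputable def del (φ : Y → ℝ) (y : Y) (v : Fin n → ℂ) : ℂ :=
  ∑ j, D.dz j (fun p => (φ p : ℂ)) y * v j

/-- The twisted curvature form. -/
noncomputable def Theta (φ τ A : Y → ℝ) (y : Y) (v : Fin n → ℂ) : ℝ :=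
  τ y * D.levi φ y v - D.levi τ y v - ‖D.del τ y v‖ ^ 2 / A y

/-- The formal adjoint of the Cauchy-Riemann operator on forms of type (0,1). -/
noncomputable def Ts (φ : Y → ℝ) (α : Fin n → Y → ℂ) (y : Y) : ℂ :=
  ∑ j, (D.dz j (fun p => (φ p : ℂ)) y * α j y - D.dz j (α j) y)

/-- Square norm of the Cauchy-Riemann operator on a form of type (0,1). -/
noncomputable def dbSq (α : Fin n → Y → ℂ) (y : Y) : ℝ :=
  (∑ j, ∑ k, ‖D.db j (α k) y - D.db k (α j) y‖ ^ 2) / 2

/-- Locally square integrable functions. -/
def L2loc (u : Y → ℂ) : Prop :=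
  AEStronglyMeasurable u D.μ ∧ ∀ K, IsCompact K → MemLp u 2 (D.μ.restrict K)

/-- The weak equation: the sum of the derivatives of `u i` along `ξ i` is `w`. -/
def WD {ι : Type} [Fintype ι] (ξ : ι → E n × E n) (u : ι → Y → ℂ) (w : Y → ℂ) : Prop :=
  ∀ t, D.Test t → ∑ i, ∫ y, u i y * D.dX (ξ i) t y ∂D.μ = -∫ y, w y * t y ∂D.μ

end RD

end Vale.Agent.P271A
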