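import Vale.Agent.P271A.SCb
import Vale.Agent.P271A.FinB

/-! P271A: exports sc, fin, vp. -/

open MeasureTheory Filter Topology Set
open scoped ContDiff ENNReal ComplexConjugate

noncomputable section

namespace Vale.Agent.P271A

open Vale.Agent.P271


end Vale.Agent.P271A
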