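import Vale.Agent.P271A.Basic

/-! P271A: the volume of a Riemann domain. -/

open MeasureTheory Filter Topology Set Complex
open scoped ContDiff ENNReal ComplexConjugate

namespace Vale.Agent.P271A

variable {n : ℕ} {Y : Type} [TopologicalSpace Y] [T2Space Y] [SecondCountableTopology Y]
  [MeasurableSpace Y] [BorelSpace Y] {D : RD n Y}

omit [T2Space Y] [SecondCountableTopology Y] in
theorem meas_emb {pr : Y → E n} (lh : IsLocalHomeomorph pr) {U : Set Y} (hU : IsOpen U)
    (hi : InjOn pr U) : MeasurableEmbedding fun p : U => pr p := by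
  refine (IsOpenEmbedding.of_continuous_injective_isOpenMap
    (lh.continuous.comp continuous_subtype_val) ?_
    (lh.isOpenMap.comp hU.isOpenMap_subtype_val)).measurableEmbedding
  exact fun p q hpq => Subtype.ext (hi p.2 q.2 hpq)

omit [TopologicalSpace Y] [T2Space Y] [SecondCountableTopology Y] [MeasurableSpace Y]
  [BorelSpace Y] in
theorem meas_image {pr : Y → E n} {U A : Set Y} (hA : A ⊆ U) :
    (fun p : U => pr p) '' (Subtype.val ⁻¹' A) = pr '' A := by
  ext z
  constructor
  · rintro ⟨p, hp, rfl⟩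
    exact ⟨p, hp, rfl⟩
  · rintro ⟨p, hp, rfl⟩
    exact ⟨⟨p, hA hp⟩, hp, rfl⟩

omit [T2Space Y] [SecondCountableTopology Y] in
theorem meas_measurableSet_image {pr : Y → E n} (lh : IsLocalHomeomorph pr) {U A : Set Y}
    (hU : IsOpen U) (hi : InjOn pr U) (hAU : A ⊆ U) (hA : MeasurableSet A) :
    MeasurableSet (pr '' A) := by
  rw [← meas_image hAU]
  exact (meas_emb lh hU hi).measurableSet_image.2 (measurable_subtype_coe hA)

theorem exists_RD (pr : Y → E n) (lh : IsLocalHomeomorph pr) : ∃ D : RD n Y, D.pr = pr := by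
  rcases isEmpty_or_nonempty Y with hY | hY
  · refine ⟨⟨pr, lh, 0, fun U _ _ A _ _ => ?_⟩, rfl⟩
    rw [Set.eq_empty_of_isEmpty A]
    simp
  choose e he hpr using lh
  obtain ⟨s, hsc, hs⟩ := TopologicalSpace.countable_cover_nhds (f := fun y => (e y).source)
    fun y => (e y).open_source.mem_nhds (he y)
  have hne : s.Nonempty := by
    obtain ⟨y⟩ := hY
    have hy : y ∈ ⋃ x ∈ s, (e x).source := hs ▸ mem_univ y
    simp only [mem_iUnion] at hy
    obtain ⟨x, hx, -⟩ := hy
    exact ⟨x, hx⟩
  obtain ⟨c, hc⟩ := hsc.exists_eq_range hne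
  have lh : IsLocalHomeomorph pr := fun y => ⟨e y, he y, hpr y⟩
  set U : ℕ → Set Y := fun k => (e (c k)).source with hU
  have hUo : ∀ k, IsOpen (U k) := fun k => (e (c k)).open_source
  have hUi : ∀ k, InjOn pr (U k) := fun k => by
    rw [hpr (c k)]; exact (e (c k)).injOn
  have hUu : ⋃ k, U k = univ := by
    rw [← hs, hc, biUnion_range]
  have hAm : ∀ k, MeasurableSet (disjointed U k) :=
    MeasurableSet.disjointed fun k => (hUo k).measurableSet
  refine ⟨⟨pr, lh, Measure.sum fun k =>
    ((volume.comap fun p : U k => pr p).map Subtype.val).restrict (disjointed U k),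
    fun V hV hi A hAV hA => ?_⟩, rfl⟩
  rw [Measure.sum_apply _ hA]
  have h1 : ∀ k, ((volume.comap fun p : U k => pr p).map Subtype.val).restrict
      (disjointed U k) A = volume (pr '' (A ∩ disjointed U k)) := by
    intro k
    rw [Measure.restrict_apply hA, Measure.map_apply measurable_subtype_coe (hA.inter (hAm k)),
      (meas_emb lh (hUo k) (hUi k)).comap_apply,
      meas_image (inter_subset_right.trans (disjointed_subset U k))]
  simp only [h1]
  rw [← measure_iUnion]
  · rw [← image_iUnion, ← inter_iUnion, iUnion_disjointed, hUu, inter_univ]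
  · intro i j hij
    refine Set.disjoint_left.2 ?_
    rintro z ⟨p, hp, rfl⟩ ⟨q, hq, hpq⟩
    have h2 : q = p := hi (hAV hq.1) (hAV hp.1) hpq
    subst h2
    exact Set.disjoint_left.1 (disjoint_disjointed U hij) hp.2 hq.2
  · intro k
    exact meas_measurableSet_image lh hV hi (inter_subset_left.trans hAV) (hA.inter (hAm k))

namespace RD

omit [T2Space Y] [SecondCountableTopology Y] in
theorem meas_emb_symm (e : OpenPartialHomeomorph Y (E n)) :
    MeasurableEmbedding fun z : e.target => e.symm z :=
  e.symm.isOpenEmbedding_restrict.measurableEmbedding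

theorem meas_emb_val (T : Set (E n)) (hT : IsOpen T) :
    MeasurableEmbedding (Subtype.val : T → E n) :=
  MeasurableEmbedding.subtype_coe hT.measurableSet

theorem meas_restrict_val (T : Set (E n)) (hT : IsOpen T) : (volume : Measure (E n)).restrict T =
    ((volume : Measure (E n)).comap (Subtype.val : T → E n)).map Subtype.val :=
  (map_comap_subtype_coe hT.measurableSet _).symm

section chart

variable (e : OpenPartialHomeomorph Y (E n)) (he : EqOn e D.pr e.source)
include he

omit [T2Space Y] [SecondCountableTopology Y] in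
theorem meas_restrict_source : D.μ.restrict e.source =
    ((volume : Measure (E n)).comap (Subtype.val : e.target → E n)).map
      fun z : e.target => e.symm z := by
  ext A hA
  rw [Measure.restrict_apply hA, (meas_emb_symm e).map_apply,
    (meas_emb_val _ e.open_target).comap_apply,
    D.hμ e.source e.open_source (e.injOn.congr he) _ inter_subset_right
      (hA.inter e.open_source.measurableSet)]
  congr 1
  ext z
  constructor
  · rintro ⟨p, hp, rfl⟩
    rw [← he hp.2]
    refine ⟨⟨e p, e.map_source hp.2⟩, ?_, rfl⟩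
    change e.symm (e p) ∈ A
    rw [e.left_inv hp.2]
    exact hp.1
  · rintro ⟨w, hw, rfl⟩
    refine ⟨e.symm w, ⟨hw, e.map_target w.2⟩, ?_⟩
    rw [← he (e.map_target w.2), e.right_inv w.2]

theorem lintegral_chart (f : Y → ℝ≥0∞) :
    ∫⁻ p in e.source, f p ∂D.μ = ∫⁻ z in e.target, f (e.symm z) := by
  rw [meas_restrict_source e he, meas_restrict_val _ e.open_target,
    (meas_emb_symm e).lintegral_map, (meas_emb_val _ e.open_target).lintegral_map]

theorem integral_chart (f : Y → ℂ) :
    ∫ p in e.source, f p ∂D.μ = ∫ z in e.target, f (e.symm z) := by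
  rw [meas_restrict_source e he, meas_restrict_val _ e.open_target,
    (meas_emb_symm e).integral_map, (meas_emb_val _ e.open_target).integral_map]

theorem ae_chart (P : Y → Prop) :
    (∀ᵐ p ∂D.μ.restrict e.source, P p) ↔ ∀ᵐ z ∂volume.restrict e.target, P (e.symm z) := by
  rw [meas_restrict_source e he, meas_restrict_val _ e.open_target,
    (meas_emb_symm e).ae_map_iff, (meas_emb_val _ e.open_target).ae_map_iff]

theorem aesm_chart (f : Y → ℂ) : AEStronglyMeasurable f (D.μ.restrict e.source) ↔
    AEStronglyMeasurable (fun z => f (e.symm z)) (volume.restrict e.target) := by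
  rw [meas_restrict_source e he, meas_restrict_val _ e.open_target,
    (meas_emb_symm e).aestronglyMeasurable_map_iff,
    (meas_emb_val _ e.open_target).aestronglyMeasurable_map_iff]
  rfl

theorem eLpNorm_chart (f : Y → ℂ) (q : ℝ≥0∞) : eLpNorm f q (D.μ.restrict e.source) =
    eLpNorm (fun z => f (e.symm z)) q (volume.restrict e.target) := by
  rw [meas_restrict_source e he, meas_restrict_val _ e.open_target,
    (meas_emb_symm e).eLpNorm_map_measure, (meas_emb_val _ e.open_target).eLpNorm_map_measure]
  rfl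

theorem memLp_chart (f : Y → ℂ) (q : ℝ≥0∞) : MemLp f q (D.μ.restrict e.source) ↔
    MemLp (fun z => f (e.symm z)) q (volume.restrict e.target) := by
  rw [meas_restrict_source e he, meas_restrict_val _ e.open_target,
    (meas_emb_symm e).memLp_map_measure_iff, (meas_emb_val _ e.open_target).memLp_map_measure_iff]
  rfl

end chart

theorem ch_eqOn (D : RD n Y) (y : Y) : EqOn (D.ch y) D.pr (D.ch y).source :=
  fun _ _ => by rw [D.ch_coe]

instance (D : RD n Y) : IsLocallyFiniteMeasure D.μ := by
  refine ⟨fun y => ?_⟩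
  have ho : IsOpen ((D.ch y).source ∩ D.pr ⁻¹' Metric.ball (D.pr y) 1) :=
    (D.ch y).open_source.inter (Metric.isOpen_ball.preimage D.continuous_pr)
  refine ⟨_, ho.mem_nhds ⟨D.mem_ch y, Metric.mem_ball_self one_pos⟩, ?_⟩
  rw [D.hμ _ (D.ch y).open_source (D.injOn_ch y) _ inter_subset_left ho.measurableSet]
  refine lt_of_le_of_lt (measure_mono ?_) (measure_ball_lt_top (x := D.pr y) (r := 1))
  rintro _ ⟨p, hp, rfl⟩
  exact hp.2

instance (D : RD n Y) : D.μ.IsOpenPosMeasure := by
  refine ⟨fun U hU hne => ?_⟩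
  obtain ⟨y, hy⟩ := hne
  have ho : IsOpen ((D.ch y).source ∩ U) := (D.ch y).open_source.inter hU
  have h1 : 0 < D.μ ((D.ch y).source ∩ U) := by
    rw [D.hμ _ (D.ch y).open_source (D.injOn_ch y) _ inter_subset_left ho.measurableSet]
    exact (D.lh.isOpenMap _ ho).measure_pos _ ⟨_, y, ⟨D.mem_ch y, hy⟩, rfl⟩
  exact (h1.trans_le (measure_mono inter_subset_right)).ne'

theorem locallyCompact (D : RD n Y) : LocallyCompactSpace Y := by
  let C : ChartedSpace (E n) Y := ⟨range D.ch, D.ch, D.mem_ch, fun y => ⟨y, rfl⟩⟩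
  exact ChartedSpace.locallyCompactSpace (E n) Y

variable {f g u w : Y → ℂ}

theorem memLp_of_cont (hf : Continuous f) (hc : HasCompactSupport f) (q : ℝ≥0∞) :
    MemLp f q D.μ :=
  hf.memLp_of_hasCompactSupport hc

theorem Test.memLp (hf : D.Test f) (q : ℝ≥0∞) : MemLp f q D.μ :=
  memLp_of_cont hf.continuous hf.2 q

theorem Test.integrable (hf : D.Test f) : Integrable f D.μ :=
  memLp_one_iff_integrable.1 (hf.memLp 1)

theorem meas_finite {K : Set Y} (hK : IsCompact K) : IsFiniteMeasure (D.μ.restrict K) :=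
  ⟨by rw [Measure.restrict_apply_univ]; exact hK.measure_lt_top⟩

theorem l2loc_of_cont (hf : Continuous f) : D.L2loc f := by
  refine ⟨hf.aestronglyMeasurable, fun K hK => ?_⟩
  obtain ⟨C, hC⟩ := hK.exists_bound_of_continuousOn hf.continuousOn
  have := meas_finite (D := D) hK
  refine MemLp.of_bound hf.aestronglyMeasurable C ?_
  filter_upwards [ae_restrict_mem hK.measurableSet] with y hy using hC y hy

theorem l2loc_of_memLp (hu : MemLp u 2 D.μ) : D.L2loc u :=
  ⟨hu.1, fun K _ => hu.restrict K⟩

theorem L2loc.add (hu : D.L2loc u) (hw : D.L2loc w) : D.L2loc fun y => u y + w y :=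
  ⟨hu.1.add hw.1, fun K hK => (hu.2 K hK).add (hw.2 K hK)⟩

theorem L2loc.sub (hu : D.L2loc u) (hw : D.L2loc w) : D.L2loc fun y => u y - w y :=
  ⟨hu.1.sub hw.1, fun K hK => (hu.2 K hK).sub (hw.2 K hK)⟩

theorem L2loc.cont_mul (hu : D.L2loc u) (hf : Continuous f) : D.L2loc fun y => f y * u y := by
  refine ⟨hf.aestronglyMeasurable.mul hu.1, fun K hK => ?_⟩
  obtain ⟨C, hC⟩ := hK.exists_bound_of_continuousOn hf.continuousOn
  refine MemLp.of_le_mul (c := C) (hu.2 K hK)
    (hf.aestronglyMeasurable.mul hu.1).restrict ?_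
  filter_upwards [ae_restrict_mem hK.measurableSet] with y hy
  rw [norm_mul]
  exact mul_le_mul_of_nonneg_right (hC y hy) (norm_nonneg _)

theorem L2loc.conj (hu : D.L2loc u) : D.L2loc fun y => conj (u y) := by
  have hm : AEStronglyMeasurable (fun y => (starRingEnd ℂ) (u y)) D.μ :=
    continuous_conj.comp_aestronglyMeasurable hu.1
  refine ⟨hm, fun K hK => MemLp.of_le (hu.2 K hK) hm.restrict ?_⟩
  exact Eventually.of_forall fun y => (Complex.norm_conj _).le

theorem L2loc.sum {ι : Type*} (s : Finset ι) {F : ι → Y → ℂ} (hF : ∀ i ∈ s, D.L2loc (F i)) :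
    D.L2loc fun y => ∑ i ∈ s, F i y := by
  classical
  induction s using Finset.induction_on with
  | empty => simpa using l2loc_of_cont (D := D) (f := fun _ => 0) continuous_const
  | insert a s ha ih =>
    simp only [Finset.sum_insert ha]
    exact (hF a (by simp)).add (ih fun i hi => hF i (by simp [hi]))

theorem L2loc.memLp_mul (hu : D.L2loc u) (hf : Continuous f) (hc : HasCompactSupport f) :
    MemLp (fun y => f y * u y) 2 D.μ := by
  have h1 : (fun y => f y * u y) = (tsupport f).indicator fun y => f y * u y := by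
    funext y
    by_cases hy : y ∈ tsupport f
    · rw [indicator_of_mem hy]
    · rw [indicator_of_notMem hy, image_eq_zero_of_notMem_tsupport hy, zero_mul]
  rw [h1, memLp_indicator_iff_restrict (isClosed_tsupport f).measurableSet]
  exact (hu.cont_mul hf).2 _ hc

theorem L2loc.integrable_mul (hu : D.L2loc u) (hf : Continuous f) (hc : HasCompactSupport f) :
    Integrable (fun y => u y * f y) D.μ := by
  have := meas_finite (D := D) hc
  have h1 : IntegrableOn (fun y => f y * u y) (tsupport f) D.μ :=
    ((hu.cont_mul hf).2 _ hc).integrable one_le_two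
  have h2 := h1.integrable_of_forall_notMem_eq_zero fun y hy => by
    rw [image_eq_zero_of_notMem_tsupport hy, zero_mul]
  simpa only [mul_comm] using h2

/-- A locally square integrable function from a weighted square integrability. -/
theorem l2loc_of_weight {W : Y → ℝ} (hW : Continuous W) (h0 : ∀ y, 0 < W y)
    (hm : AEStronglyMeasurable u D.μ) (hi : Integrable (fun y => ‖u y‖ ^ 2 * W y) D.μ) :
    D.L2loc u := by
  refine ⟨hm, fun K hK => ?_⟩
  obtain ⟨C, hC⟩ := hK.exists_bound_of_continuousOn
    (hW.inv₀ fun y => (h0 y).ne').continuousOn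
  rw [memLp_two_iff_integrable_sq_norm hm.restrict]
  refine Integrable.mono' (hi.const_mul C).integrableOn (hm.norm.pow 2).restrict ?_
  filter_upwards [ae_restrict_mem hK.measurableSet] with y hy
  have h1 : (W y)⁻¹ ≤ C := (le_abs_self _).trans (hC y hy)
  have h2 : ‖u y‖ ^ 2 = (W y)⁻¹ * (‖u y‖ ^ 2 * W y) := by
    have := (h0 y).ne'
    field_simp
  rw [Real.norm_eq_abs, abs_of_nonneg (sq_nonneg _)]
  calc ‖u y‖ ^ 2 = (W y)⁻¹ * (‖u y‖ ^ 2 * W y) := h2
    _ ≤ C * (‖u y‖ ^ 2 * W y) :=
      mul_le_mul_of_nonneg_right h1 (mul_nonneg (sq_nonneg _) (h0 y).le)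

end RD

end Vale.Agent.P271A
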