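import Vale.Agent.P271A.Basic

/-! P271A: mollification on affine space. -/

open MeasureTheory Filter Topology Set Complex
open scoped ContDiff ENNReal ComplexConjugate

namespace Vale.Agent.P271A

variable {n : ℕ}

/-- Convolution. -/
noncomputable def cv (u k : E n → ℂ) (z : E n) : ℂ := ∫ t, u t * k (z - t)

/-- The normalised kernel of a bump function. -/
noncomputable def ker (β : ContDiffBump (0 : E n)) (z : E n) : ℂ := (β.normed volume z : ℝ)

variable {u k : E n → ℂ} {ξ : E n × E n}

theorem ker_smooth (β : ContDiffBump (0 : E n)) : ContDiff ℝ ∞ (ker β) :=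
  ofRealCLM.contDiff.comp β.contDiff_normed

theorem ker_compact (β : ContDiffBump (0 : E n)) : HasCompactSupport (ker β) :=
  β.hasCompactSupport_normed.comp_left (g := fun x : ℝ => (x : ℂ)) ofReal_zero

theorem ker_tsupport (β : ContDiffBump (0 : E n)) :
    tsupport (ker β) ⊆ Metric.closedBall 0 β.rOut := by
  rw [← β.tsupport_normed_eq (μ := volume)]
  refine closure_mono fun z hz h0 => hz ?_
  rw [ker, h0, ofReal_zero]

theorem refl_test (hk : ContDiff ℝ ∞ k) (hc : HasCompactSupport k) (z : E n) :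
    ContDiff ℝ ∞ (fun t => k (z - t)) ∧ HasCompactSupport (fun t => k (z - t)) ∧
      ∀ t ∈ tsupport fun t => k (z - t), z - t ∈ tsupport k := by
  refine ⟨hk.comp (contDiff_const.sub contDiff_id), hc.comp_homeomorph (Homeomorph.subLeft z),
    fun t ht => by_contra fun h => ?_⟩
  have h1 : Tendsto (fun s : E n => z - s) (𝓝 t) (𝓝 (z - t)) :=
    (continuous_const.sub continuous_id).continuousAt
  exact notMem_tsupport_iff_eventuallyEq.2
    (h1.eventually (notMem_tsupport_iff_eventuallyEq.1 h)) ht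

theorem moll_cv_eq (u k : E n → ℂ) :
    cv u k = convolution u k (ContinuousLinearMap.mul ℝ ℂ) volume := rfl

theorem moll_lint (hu : MemLp u 2 volume) : LocallyIntegrable u volume :=
  hu.locallyIntegrable one_le_two

theorem moll_int (hu : MemLp u 2 volume) (hk : Continuous k) (hc : HasCompactSupport k)
    (z : E n) : Integrable fun t => u t * k (z - t) :=
  hc.convolutionExists_right (ContinuousLinearMap.mul ℝ ℂ) (moll_lint hu) hk z

theorem cv_smooth (hu : MemLp u 2 volume) (hk : ContDiff ℝ ∞ k) (hc : HasCompactSupport k) :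
    ContDiff ℝ ∞ (cv u k) :=
  hc.contDiff_convolution_right (ContinuousLinearMap.mul ℝ ℂ) (moll_lint hu) hk

theorem moll_fderiv (hu : MemLp u 2 volume) (hk : ContDiff ℝ ∞ k) (hc : HasCompactSupport k)
    (z v : E n) : fderiv ℝ (cv u k) z v = ∫ t, u t * fderiv ℝ k (z - t) v := by
  have h1 : ContDiff ℝ 1 k := hk.of_le (by exact_mod_cast le_top)
  have := (hc.hasFDerivAt_convolution_right (ContinuousLinearMap.mul ℝ ℂ) (moll_lint hu)
    h1 z).fderiv
  rw [moll_cv_eq, this, convolution_precompR_apply (ContinuousLinearMap.mul ℝ ℂ) (moll_lint hu)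
    (hc.fderiv ℝ) (h1.continuous_fderiv one_ne_zero)]
  rfl

theorem moll_fderiv_refl (hk : ContDiff ℝ ∞ k) (z t v : E n) :
    fderiv ℝ (fun s => k (z - s)) t v = -fderiv ℝ k (z - t) v := by
  have h1 : HasFDerivAt (fun t : E n => z - t) (-ContinuousLinearMap.id ℝ (E n)) t :=
    (hasFDerivAt_id t).const_sub z
  have h2 := ((hk.differentiable (by simp)) (z - t)).hasFDerivAt.comp t h1
  rw [show (fun s => k (z - s)) = k ∘ fun s => z - s from rfl, h2.fderiv]
  simp

theorem eX_cv (hu : MemLp u 2 volume) (hk : ContDiff ℝ ∞ k) (hc : HasCompactSupport k) (z : E n) :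
    eX ξ (cv u k) z = -∫ t, u t * eX ξ (fun s => k (z - s)) t := by
  have hi : ∀ v : E n, Integrable fun t => u t * fderiv ℝ k (z - t) v := fun v =>
    moll_int (k := fun s => fderiv ℝ k s v) hu
      ((hk.continuous_fderiv (by simp)).clm_apply continuous_const) (hc.fderiv_apply ℝ v) z
  rw [eX, moll_fderiv hu hk hc, moll_fderiv hu hk hc, ← integral_const_mul,
    ← integral_add (hi _) ((hi _).const_mul _), ← integral_neg]
  refine integral_congr_ae (Eventually.of_forall fun t => ?_)
  simp only [eX, moll_fderiv_refl hk]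
  ring

theorem cv_tsupport {K : Set (E n)} (hu : ∀ z, z ∉ K → u z = 0) (β : ContDiffBump (0 : E n)) :
    tsupport (cv u (ker β)) ⊆ Metric.cthickening β.rOut K := by
  refine closure_minimal (fun z hz => by_contra fun h => hz ?_) Metric.isClosed_cthickening
  have h1 : ∀ t, u t * ker β (z - t) = 0 := by
    intro t
    by_cases ht : t ∈ K
    · have h2 : z - t ∉ tsupport (ker β) := fun h3 => by
        have h4 := ker_tsupport β h3
        rw [mem_closedBall_zero_iff, ← dist_eq_norm] at h4
        exact h (Metric.mem_cthickening_of_dist_le z t _ K ht h4)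
      rw [image_eq_zero_of_notMem_tsupport h2, mul_zero]
    · rw [hu t ht, zero_mul]
  simp only [cv, h1, integral_zero]

theorem moll_cs {f w : E n → ℝ} (hw : ∀ t, 0 ≤ w t) (h0 : ∫ t, w t = 1)
    (h1 : Integrable fun t => f t * w t) (h2 : Integrable fun t => f t ^ 2 * w t) :
    (∫ t, f t * w t) ^ 2 ≤ ∫ t, f t ^ 2 * w t := by
  have hi : Integrable w := integrable_of_integral_eq_one h0
  set s : ℝ := ∫ t, f t * w t with hs
  have e : ∫ t, (f t - s) ^ 2 * w t =
      ∫ t, (f t ^ 2 * w t - 2 * s * (f t * w t) + s ^ 2 * w t) :=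
    integral_congr_ae (Eventually.of_forall fun t => by ring)
  have a1 : Integrable fun t => f t ^ 2 * w t - 2 * s * (f t * w t) := h2.sub (h1.const_mul _)
  rw [integral_add a1 (hi.const_mul _), integral_sub h2 (h1.const_mul _), integral_const_mul,
    integral_const_mul, h0, ← hs] at e
  have h3 : 0 ≤ ∫ t, (f t - s) ^ 2 * w t :=
    integral_nonneg fun t => mul_nonneg (sq_nonneg _) (hw t)
  linarith

theorem moll_enorm_sq (a : ℂ) : ‖a‖ₑ ^ (2 : ℝ≥0∞).toReal = ENNReal.ofReal (‖a‖ ^ 2) := by
  rw [ENNReal.toReal_ofNat, ENNReal.rpow_ofNat, ENNReal.ofReal_pow (norm_nonneg _),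
    ofReal_norm_eq_enorm]

theorem moll_eLp_le {f g : E n → ℂ} {h : E n → ℝ} (hg : MemLp g 2 volume) (hi : Integrable h)
    (hpt : ∀ z, ‖f z‖ ^ 2 ≤ h z) (hle : ∫ z, h z ≤ ∫ z, ‖g z‖ ^ 2) :
    eLpNorm f 2 volume ≤ eLpNorm g 2 volume := by
  rw [eLpNorm_eq_lintegral_rpow_enorm_toReal two_ne_zero ENNReal.ofNat_ne_top,
    eLpNorm_eq_lintegral_rpow_enorm_toReal two_ne_zero ENNReal.ofNat_ne_top]
  refine ENNReal.rpow_le_rpow ?_ (by positivity)
  simp only [moll_enorm_sq]
  rw [← ofReal_integral_eq_lintegral_ofReal ((memLp_two_iff_integrable_sq_norm hg.1).1 hg)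
    (Eventually.of_forall fun z => sq_nonneg _)]
  refine le_trans (lintegral_mono fun z => ENNReal.ofReal_le_ofReal (hpt z)) ?_
  rw [← ofReal_integral_eq_lintegral_ofReal hi
    (Eventually.of_forall fun z => (sq_nonneg _).trans (hpt z))]
  exact ENNReal.ofReal_le_ofReal hle

theorem cv_young (hu : MemLp u 2 volume) (β : ContDiffBump (0 : E n)) :
    eLpNorm (cv u (ker β)) 2 volume ≤ eLpNorm u 2 volume := by
  have hc : Continuous (β.normed volume) := β.continuous_normed
  have hs : HasCompactSupport (β.normed volume) := β.hasCompactSupport_normed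
  have hi : Integrable (β.normed volume) := β.integrable_normed
  have hsq : Integrable fun z => ‖u z‖ ^ 2 := (memLp_two_iff_integrable_sq_norm hu.1).1 hu
  have i2 := hsq.integrable_convolution (ContinuousLinearMap.mul ℝ ℝ) hi
  have e2 := integral_convolution (ContinuousLinearMap.mul ℝ ℝ) hsq hi
  refine moll_eLp_le hu i2 (fun z => ?_) (by rw [e2, β.integral_normed]; simp)
  have a1 : Integrable fun t => ‖u t‖ * β.normed volume (z - t) :=
    hs.convolutionExists_right (ContinuousLinearMap.mul ℝ ℝ)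
      (hu.norm.locallyIntegrable one_le_two) hc z
  have a2 : Integrable fun t => ‖u t‖ ^ 2 * β.normed volume (z - t) :=
    hs.convolutionExists_right (ContinuousLinearMap.mul ℝ ℝ) hsq.locallyIntegrable hc z
  have a0 : ∫ t, β.normed volume (z - t) = 1 := by
    rw [integral_sub_left_eq_self (β.normed volume) volume z, β.integral_normed]
  have a3 := moll_cs (f := fun t => ‖u t‖) (w := fun t => β.normed volume (z - t))
    (fun t => β.nonneg_normed _) a0 a1 a2
  refine le_trans ?_ a3
  refine pow_le_pow_left₀ (norm_nonneg _) ((norm_integral_le_integral_norm _).trans_eq ?_) 2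
  refine integral_congr_ae (Eventually.of_forall fun t => ?_)
  simp only [ker, norm_mul, norm_real, Real.norm_eq_abs, abs_of_nonneg (β.nonneg_normed _)]

theorem moll_unif {g : E n → ℂ} (hg : Continuous g) (hc : HasCompactSupport g) {η : ℝ}
    (hη : 0 < η) : ∃ δ > 0, ∀ β : ContDiffBump (0 : E n), β.rOut ≤ δ →
      ∀ z, ‖cv g (ker β) z - g z‖ ≤ η := by
  obtain ⟨δ, hδ, h⟩ := Metric.uniformContinuous_iff.1 (hc.uniformContinuous_of_continuous hg) η hη
  refine ⟨δ, hδ, fun β hβ z => ?_⟩
  have h1 := β.dist_normed_convolution_le (μ := volume) (g := g) (x₀ := z) (ε := η)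
    hg.aestronglyMeasurable fun x hx => (h (lt_of_lt_of_le hx hβ)).le
  have h2 : cv g (ker β) z =
      convolution (β.normed volume) g (ContinuousLinearMap.lsmul ℝ ℝ) volume z := by
    rw [convolution_eq_swap, cv]
    refine integral_congr_ae (Eventually.of_forall fun t => ?_)
    simp only [ker, ContinuousLinearMap.lsmul_apply, real_smul, mul_comm]
  rw [← dist_eq_norm, h2]
  exact h1

/-- Mollifications converge in the quadratic mean. -/
theorem cv_tendsto (hu : MemLp u 2 volume) {ε : ℝ≥0∞} (hε : 0 < ε) : ∃ δ > 0,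
    ∀ β : ContDiffBump (0 : E n), β.rOut ≤ δ →
      eLpNorm (fun z => cv u (ker β) z - u z) 2 volume ≤ ε := by
  have hε3 : ε / 3 ≠ 0 := (ENNReal.div_pos hε.ne' ENNReal.ofNat_ne_top).ne'
  obtain ⟨g, hgc, hug, hg, hgm⟩ :=
    hu.exists_hasCompactSupport_eLpNorm_sub_le ENNReal.ofNat_ne_top hε3
  set K : Set (E n) := Metric.cthickening 1 (tsupport g) with hK
  have hKc : IsCompact K := IsCompact.cthickening hgc
  have hA : volume K ^ (2 : ℝ≥0∞).toReal⁻¹ ≠ ⊤ :=
    ENNReal.rpow_ne_top_of_nonneg (by positivity) hKc.measure_lt_top.ne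
  obtain ⟨η, hη, hηA⟩ := ENNReal.exists_nnreal_pos_mul_lt hA hε3
  obtain ⟨δ, hδ, hun⟩ := moll_unif hg hgc (η := η) (by exact_mod_cast hη)
  refine ⟨min δ 1, lt_min hδ one_pos, fun β hβ => ?_⟩
  have hkc := (ker_smooth β).continuous
  have hm1 : MemLp (u - g) 2 volume := hu.sub hgm
  have h1 : (fun z => cv u (ker β) z - u z) =
      cv (u - g) (ker β) + (fun z => cv g (ker β) z - g z) + -(u - g) := by
    funext z
    have h2 : cv (u - g) (ker β) z = cv u (ker β) z - cv g (ker β) z := by
      rw [cv, cv, cv, ← integral_sub (moll_int hu hkc (ker_compact β) z)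
        (moll_int hgm hkc (ker_compact β) z)]
      refine integral_congr_ae (Eventually.of_forall fun t => ?_)
      simp only [Pi.sub_apply]
      ring
    simp only [Pi.add_apply, Pi.neg_apply, Pi.sub_apply, h2]
    ring
  have m1 : AEStronglyMeasurable (cv (u - g) (ker β)) volume :=
    (cv_smooth hm1 (ker_smooth β) (ker_compact β)).continuous.aestronglyMeasurable
  have m2 : AEStronglyMeasurable (fun z => cv g (ker β) z - g z) volume :=
    ((cv_smooth hgm (ker_smooth β) (ker_compact β)).continuous.sub hg).aestronglyMeasurable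
  have b2 : eLpNorm (fun z => cv g (ker β) z - g z) 2 volume ≤ ε / 3 := by
    have h3 : K.indicator (fun z => cv g (ker β) z - g z) = fun z => cv g (ker β) z - g z := by
      funext z
      by_cases hz : z ∈ K
      · rw [indicator_of_mem hz]
      · have h4 : z ∉ tsupport (cv g (ker β)) := fun h5 => hz
          (Metric.cthickening_mono (hβ.trans (min_le_right _ _)) _
            (cv_tsupport (fun w hw => image_eq_zero_of_notMem_tsupport hw) β h5))
        have h6 : z ∉ tsupport g := fun h5 => hz (Metric.self_subset_cthickening _ h5)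
        rw [indicator_of_notMem hz, image_eq_zero_of_notMem_tsupport h4,
          image_eq_zero_of_notMem_tsupport h6, sub_zero]
    rw [← h3, eLpNorm_indicator_eq_eLpNorm_restrict hKc.measurableSet]
    refine (eLpNorm_le_of_ae_bound (C := η) (Eventually.of_forall fun z =>
      hun β (hβ.trans (min_le_left _ _)) z)).trans ?_
    rw [Measure.restrict_apply_univ, ENNReal.ofReal_coe_nnreal, mul_comm]
    exact hηA.le
  rw [h1]
  refine (eLpNorm_add_le (m1.add m2) hm1.1.neg one_le_two).trans ?_
  rw [eLpNorm_neg, ← ENNReal.add_thirds ε]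
  refine add_le_add ((eLpNorm_add_le m1 m2 one_le_two).trans (add_le_add ?_ b2)) hug
  exact (cv_young hm1 β).trans hug

/-- Weak solutions of constant coefficient systems are strong solutions. -/
theorem moll {ι κ : Type} [Fintype ι] [Fintype κ] (ξ : κ → ι → E n × E n) {u : ι → E n → ℂ}
    {w : κ → E n → ℂ} {K : Set (E n)} (hu : ∀ i, MemLp (u i) 2 volume)
    (hw : ∀ k, MemLp (w k) 2 volume) (huK : ∀ i z, z ∉ K → u i z = 0)
    (hwd : ∀ k (t : E n → ℂ), ContDiff ℝ ∞ t → HasCompactSupport t →
      ∑ i, ∫ z, u i z * eX (ξ k i) t z = -∫ z, w k z * t z)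
    {δ : ℝ} (hδ : 0 < δ) {ε : ℝ≥0∞} (hε : 0 < ε) :
    ∃ u' : ι → E n → ℂ, (∀ i, ContDiff ℝ ∞ (u' i) ∧ tsupport (u' i) ⊆ Metric.cthickening δ K) ∧
      (∀ i, eLpNorm (fun z => u' i z - u i z) 2 volume ≤ ε) ∧
      ∀ k, eLpNorm (fun z => ∑ i, eX (ξ k i) (u' i) z - w k z) 2 volume ≤ ε := by
  choose a ha hua using fun i => cv_tendsto (hu i) hε
  choose b hb hwb using fun k => cv_tendsto (hw k) hε
  have hev : ∀ c : ℝ, 0 < c → ∀ᶠ r in 𝓝[>] (0 : ℝ), r ≤ c := fun c hc =>
    nhdsWithin_le_nhds (Iic_mem_nhds hc)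
  obtain ⟨r, hr0, hrδ, hra, hrb⟩ := ((self_mem_nhdsWithin : Ioi (0 : ℝ) ∈ 𝓝[>] 0) |>
    Eventually.and <| (hev δ hδ).and <| (eventually_all.2 fun i => hev _ (ha i)).and
      (eventually_all.2 fun k => hev _ (hb k))).exists
  have hr : 0 < r := hr0
  let β : ContDiffBump (0 : E n) := ⟨r / 2, r, by positivity, by linarith⟩
  refine ⟨fun i => cv (u i) (ker β), fun i => ⟨cv_smooth (hu i) (ker_smooth β) (ker_compact β),
    (cv_tsupport (huK i) β).trans (Metric.cthickening_mono hrδ K)⟩, fun i => hua i β (hra i),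
    fun k => ?_⟩
  have h1 : ∀ z, ∑ i, eX (ξ k i) (cv (u i) (ker β)) z = cv (w k) (ker β) z := by
    intro z
    obtain ⟨t1, t2, -⟩ := refl_test (ker_smooth β) (ker_compact β) z
    simp only [eX_cv (hu _) (ker_smooth β) (ker_compact β), Finset.sum_neg_distrib]
    rw [hwd k _ t1 t2, neg_neg, cv]
  simp only [h1]
  exact hwb k β (hrb k)

end Vale.Agent.P271A
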