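import Vale.Agent.P271A.Meas

/-! P271A: test functions, localisation and integration by parts. -/

open MeasureTheory Filter Topology Set Complex
open scoped ContDiff ENNReal ComplexConjugate

namespace Vale.Agent.P271A

variable {n : ℕ} {Y : Type} [TopologicalSpace Y] [T2Space Y] [SecondCountableTopology Y]
  [MeasurableSpace Y] [BorelSpace Y] {D : RD n Y}

namespace RD

open Classical in
/-- Extension by zero of the chart expression. -/
noncomputable def push (D : RD n Y) (y : Y) (f : Y → ℂ) (z : E n) : ℂ :=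
  if z ∈ (D.ch y).target then f (D.sec y z) else 0

open Classical in
/-- Pull back to a chart, extended by zero. -/
noncomputable def pull (D : RD n Y) (y : Y) (F : E n → ℂ) (p : Y) : ℂ :=
  if p ∈ (D.ch y).source then F (D.pr p) else 0

variable {f g : Y → ℂ} {F : E n → ℂ} {y : Y} {ξ : E n × E n}

omit [T2Space Y] [SecondCountableTopology Y] [BorelSpace Y] in
theorem part_push_in (f : Y → ℂ) {z : E n} (hz : z ∈ (D.ch y).target) :
    D.push y f =ᶠ[𝓝 z] f ∘ D.sec y := by
  filter_upwards [(D.ch y).open_target.mem_nhds hz] with w hw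
  rw [push, if_pos hw, Function.comp_apply]

omit [T2Space Y] [SecondCountableTopology Y] [BorelSpace Y] in
theorem part_push_out (hc : HasCompactSupport f) {z : E n} (hz : z ∉ D.pr '' tsupport f) :
    D.push y f =ᶠ[𝓝 z] fun _ => 0 := by
  have hK : IsCompact (D.pr '' tsupport f) := IsCompact.image hc D.continuous_pr
  filter_upwards [hK.isClosed.isOpen_compl.mem_nhds hz] with w hw
  rw [push]
  split_ifs with h
  · by_contra hne
    exact hw ⟨_, subset_tsupport f hne, D.pr_sec h⟩
  · rfl

omit [T2Space Y] [SecondCountableTopology Y] [BorelSpace Y] in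
theorem part_notMem_image (hs : tsupport f ⊆ (D.ch y).source) {z : E n}
    (hz : z ∉ (D.ch y).target) : z ∉ D.pr '' tsupport f := by
  rintro ⟨p, hp, rfl⟩
  exact hz (D.pr_mem (hs hp))

omit [T2Space Y] [SecondCountableTopology Y] [BorelSpace Y] in
theorem part_pull_in (F : E n → ℂ) {p : Y} (hp : p ∈ (D.ch y).source) :
    D.pull y F =ᶠ[𝓝 p] F ∘ D.pr := by
  filter_upwards [(D.ch y).open_source.mem_nhds hp] with w hw
  rw [pull, if_pos hw, Function.comp_apply]

omit [T2Space Y] [SecondCountableTopology Y] [BorelSpace Y] in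
theorem part_compact (hc : HasCompactSupport F) (hs : tsupport F ⊆ (D.ch y).target) :
    IsCompact (D.sec y '' tsupport F) :=
  IsCompact.image_of_continuousOn hc ((D.ch y).continuousOn_symm.mono hs)

omit [SecondCountableTopology Y] [BorelSpace Y] in
theorem part_pull_out (hc : HasCompactSupport F) (hs : tsupport F ⊆ (D.ch y).target) {p : Y}
    (hp : p ∉ D.sec y '' tsupport F) : D.pull y F =ᶠ[𝓝 p] fun _ => 0 := by
  filter_upwards [(part_compact hc hs).isClosed.isOpen_compl.mem_nhds hp] with w hw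
  rw [pull]
  split_ifs with h
  · by_contra hne
    exact hw ⟨_, subset_tsupport F hne, D.sec_pr h⟩
  · rfl

omit [T2Space Y] [SecondCountableTopology Y] [BorelSpace Y] in
theorem part_notMem_sec (hs : tsupport F ⊆ (D.ch y).target) {p : Y}
    (hp : p ∉ (D.ch y).source) : p ∉ D.sec y '' tsupport F := by
  rintro ⟨z, hz, rfl⟩
  exact hp (D.sec_mem (hs hz))

theorem push_test (hf : D.Test f) (hs : tsupport f ⊆ (D.ch y).source) :
    ContDiff ℝ ∞ (D.push y f) ∧ HasCompactSupport (D.push y f) ∧
      tsupport (D.push y f) ⊆ D.pr '' tsupport f := by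
  have h3 : tsupport (D.push y f) ⊆ D.pr '' tsupport f := fun z hz => by_contra fun h =>
    notMem_tsupport_iff_eventuallyEq.2 (part_push_out hf.2 h) hz
  refine ⟨contDiff_iff_contDiffAt.2 fun z => ?_,
    (IsCompact.image hf.2 D.continuous_pr).of_isClosed_subset (isClosed_tsupport _) h3, h3⟩
  by_cases hz : z ∈ (D.ch y).target
  · exact (hf.1.at_sec hz).congr_of_eventuallyEq (part_push_in f hz)
  · exact contDiffAt_const.congr_of_eventuallyEq (part_push_out hf.2 (part_notMem_image hs hz))

theorem eX_push (hf : D.Test f) (hs : tsupport f ⊆ (D.ch y).source) :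
    eX ξ (D.push y f) = D.push y (D.dX ξ f) := by
  funext z
  by_cases hz : z ∈ (D.ch y).target
  · rw [eX_congr (part_push_in f hz), push, if_pos hz, D.dX_sec f hz]
  · rw [eX_congr (part_push_out hf.2 (part_notMem_image hs hz)), eX_const, push, if_neg hz]

theorem pull_test (hF : ContDiff ℝ ∞ F) (hc : HasCompactSupport F)
    (hs : tsupport F ⊆ (D.ch y).target) :
    D.Test (D.pull y F) ∧ tsupport (D.pull y F) ⊆ D.sec y '' tsupport F := by
  have h3 : tsupport (D.pull y F) ⊆ D.sec y '' tsupport F := fun p hp => by_contra fun h =>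
    notMem_tsupport_iff_eventuallyEq.2 (part_pull_out hc hs h) hp
  refine ⟨⟨sm_of_rep fun p => ?_,
    (part_compact hc hs).of_isClosed_subset (isClosed_tsupport _) h3⟩, h3⟩
  by_cases hp : p ∈ (D.ch y).source
  · exact ⟨F, hF.contDiffAt, part_pull_in F hp⟩
  · exact ⟨fun _ => 0, contDiffAt_const, part_pull_out hc hs (part_notMem_sec hs hp)⟩

theorem dX_pull (hF : ContDiff ℝ ∞ F) (hc : HasCompactSupport F)
    (hs : tsupport F ⊆ (D.ch y).target) : D.dX ξ (D.pull y F) = D.pull y (eX ξ F) := by
  funext p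
  by_cases hp : p ∈ (D.ch y).source
  · rw [dX_rep (part_pull_in F hp), pull, if_pos hp]
  · rw [dX_congr (part_pull_out hc hs (part_notMem_sec hs hp)), dX_const, pull, if_neg hp]

omit [T2Space Y] [SecondCountableTopology Y] [BorelSpace Y] in
theorem part_push_eq (f : Y → ℂ) :
    D.push y f = (D.ch y).target.indicator fun z => f ((D.ch y).symm z) := by
  funext z
  by_cases hz : z ∈ (D.ch y).target
  · rw [push, if_pos hz, indicator_of_mem hz]; rfl
  · rw [push, if_neg hz, indicator_of_notMem hz]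

theorem integral_push (h : ∀ p, p ∉ (D.ch y).source → f p = 0) :
    ∫ z, D.push y f z = ∫ p, f p ∂D.μ := by
  rw [part_push_eq, integral_indicator (D.ch y).open_target.measurableSet,
    ← integral_chart (D.ch y) (D.ch_eqOn y) f, setIntegral_eq_integral_of_forall_compl_eq_zero h]

theorem eLpNorm_push (h : ∀ p, p ∉ (D.ch y).source → f p = 0) (q : ℝ≥0∞) :
    eLpNorm (D.push y f) q volume = eLpNorm f q D.μ := by
  have h1 : (D.ch y).source.indicator f = f := by
    funext p
    by_cases hp : p ∈ (D.ch y).source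
    · rw [indicator_of_mem hp]
    · rw [indicator_of_notMem hp, h p hp]
  rw [part_push_eq, eLpNorm_indicator_eq_eLpNorm_restrict (D.ch y).open_target.measurableSet,
    ← eLpNorm_chart (D.ch y) (D.ch_eqOn y) f,
    ← eLpNorm_indicator_eq_eLpNorm_restrict (D.ch y).open_source.measurableSet, h1]

theorem memLp_push (h : ∀ p, p ∉ (D.ch y).source → f p = 0) {q : ℝ≥0∞} (hf : MemLp f q D.μ) :
    MemLp (D.push y f) q volume := by
  rw [part_push_eq, memLp_indicator_iff_restrict (D.ch y).open_target.measurableSet,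
    ← memLp_chart (D.ch y) (D.ch_eqOn y) f]
  exact hf.restrict _

theorem part_tsupport_ofReal {X : Type*} [TopologicalSpace X] (χ : X → ℝ) :
    tsupport (fun p => (χ p : ℂ)) = tsupport χ := by
  unfold tsupport
  congr 1
  ext p
  simp only [Function.mem_support, ne_eq, ofReal_eq_zero]

theorem part_bump (D : RD n Y) (y : Y) {U : Set Y} (hU : U ∈ 𝓝 y) :
    ∃ χ : Y → ℝ, D.Test (fun p => (χ p : ℂ)) ∧ (∀ p, 0 ≤ χ p ∧ χ p ≤ 1) ∧
      (χ =ᶠ[𝓝 y] fun _ => 1) ∧ tsupport χ ⊆ U := by
  classical
  have hV : (D.ch y).target ∩ D.sec y ⁻¹' U ∈ 𝓝 (D.pr y) :=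
    inter_mem (D.target_nhds y) (D.tendsto_sec y hU)
  obtain ⟨r, hr, hball⟩ := Metric.nhds_basis_closedBall.mem_iff.1 hV
  let β : ContDiffBump (D.pr y) := ⟨r / 2, r, by positivity, by linarith⟩
  have hβs : ContDiff ℝ ∞ fun z => (β z : ℂ) := ofRealCLM.contDiff.comp β.contDiff
  have hβt : tsupport (fun z => (β z : ℂ)) = Metric.closedBall (D.pr y) r := by
    rw [part_tsupport_ofReal, β.tsupport_eq]
  have hβc : HasCompactSupport fun z => (β z : ℂ) := by
    rw [HasCompactSupport, hβt]
    exact isCompact_closedBall _ _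
  have hs : tsupport (fun z => (β z : ℂ)) ⊆ (D.ch y).target := by
    rw [hβt]; exact hball.trans inter_subset_left
  obtain ⟨h1, h2⟩ := pull_test hβs hβc hs
  have heq : (fun p => ((if p ∈ (D.ch y).source then β (D.pr p) else 0 : ℝ) : ℂ)) =
      D.pull y fun z => (β z : ℂ) := by
    funext p
    rw [pull]
    split_ifs <;> simp
  refine ⟨fun p => if p ∈ (D.ch y).source then β (D.pr p) else 0, heq ▸ h1, fun p => ?_, ?_, ?_⟩
  · dsimp only
    split_ifs
    · exact ⟨β.nonneg, β.le_one⟩
    · exact ⟨le_rfl, zero_le_one⟩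
  · filter_upwards [D.source_nhds y, D.continuous_pr.continuousAt.eventually β.eventuallyEq_one]
      with p hp hp'
    rw [if_pos hp, hp', Pi.one_apply]
  · rw [← part_tsupport_ofReal, heq]
    refine h2.trans ?_
    rintro _ ⟨z, hz, rfl⟩
    rw [hβt] at hz
    exact (hball hz).2

/-- Cutoff functions. -/
theorem exists_cutoff (D : RD n Y) {K U : Set Y} (hK : IsCompact K) (hU : IsOpen U)
    (hKU : K ⊆ U) : ∃ χ : Y → ℝ, D.Test (fun p => (χ p : ℂ)) ∧ (∀ p, 0 ≤ χ p ∧ χ p ≤ 1) ∧
      (∀ p ∈ K, χ =ᶠ[𝓝 p] fun _ => 1) ∧ tsupport χ ⊆ U := by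
  refine hK.induction_on (p := fun K => ∃ χ : Y → ℝ, D.Test (fun p => (χ p : ℂ)) ∧
    (∀ p, 0 ≤ χ p ∧ χ p ≤ 1) ∧ (∀ p ∈ K, χ =ᶠ[𝓝 p] fun _ => 1) ∧ tsupport χ ⊆ U) ?_ ?_ ?_ ?_
  · refine ⟨fun _ => 0, by simpa using test_zero (D := D), fun _ => ⟨le_rfl, zero_le_one⟩,
      fun _ h => h.elim, ?_⟩
    rw [tsupport_fun_zero]
    exact empty_subset _
  · rintro s t hst ⟨χ, h1, h2, h3, h4⟩
    exact ⟨χ, h1, h2, fun p hp => h3 p (hst hp), h4⟩
  · rintro s t ⟨a, a1, a2, a3, a4⟩ ⟨b, b1, b2, b3, b4⟩
    refine ⟨fun p => a p + b p - a p * b p, ?_, fun p => ?_, ?_, fun p hp => ?_⟩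
    · have := (a1.add b1).sub (a1.mul b1.1)
      simpa using this
    · have h1 := mul_nonneg (sub_nonneg.2 (a2 p).2) (sub_nonneg.2 (b2 p).2)
      have h2 := mul_nonneg (a2 p).1 (sub_nonneg.2 (b2 p).2)
      have h3 := (b2 p).1
      constructor <;> nlinarith
    · rintro p (hp | hp)
      · filter_upwards [a3 p hp] with q hq
        rw [hq]; ring
      · filter_upwards [b3 p hp] with q hq
        rw [hq]; ring
    · by_contra hpU
      refine notMem_tsupport_iff_eventuallyEq.2 ?_ hp
      filter_upwards [notMem_tsupport_iff_eventuallyEq.1 fun h => hpU (a4 h),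
        notMem_tsupport_iff_eventuallyEq.1 fun h => hpU (b4 h)] with q hq hq'
      simp only [hq, hq', Pi.zero_apply, add_zero, mul_zero, sub_zero]
  · intro x hx
    obtain ⟨χ, h1, h2, h3, h4⟩ := part_bump D x (hU.mem_nhds (hKU hx))
    exact ⟨{p | χ =ᶠ[𝓝 p] fun _ => 1}, mem_nhdsWithin_of_mem_nhds h3.eventually_nhds,
      χ, h1, h2, fun p hp => hp, h4⟩

/-- Every test function is a finite sum of test functions supported in charts. -/
theorem test_induction {P : (Y → ℂ) → Prop} (h0 : P fun _ => 0)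
    (hadd : ∀ f g, D.Test f → D.Test g → P f → P g → P fun p => f p + g p)
    (hloc : ∀ f y, D.Test f → tsupport f ⊆ (D.ch y).source → P f) (hf : D.Test f) : P f := by
  have key : ∃ V : Set Y, IsOpen V ∧ tsupport f ⊆ V ∧
      ∀ g, D.Test g → tsupport g ⊆ V → P g := by
    refine IsCompact.induction_on hf.2 (p := fun K => ∃ V : Set Y, IsOpen V ∧ K ⊆ V ∧
      ∀ g, D.Test g → tsupport g ⊆ V → P g) ?_ ?_ ?_ ?_
    · refine ⟨∅, isOpen_empty, subset_rfl, fun g _ hg => ?_⟩
      have : g = fun _ => 0 := funext fun p => image_eq_zero_of_notMem_tsupport fun h => hg h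
      rw [this]
      exact h0
    · rintro s t hst ⟨V, h1, h2, h3⟩
      exact ⟨V, h1, hst.trans h2, h3⟩
    · rintro s t ⟨V, a1, a2, a3⟩ ⟨W, b1, b2, b3⟩
      refine ⟨V ∪ W, a1.union b1, union_subset_union a2 b2, fun g hg hgs => ?_⟩
      have hK : IsCompact (tsupport g \ W) := IsCompact.diff hg.2 b1
      obtain ⟨χ, c1, -, c3, c4⟩ := D.exists_cutoff hK a1
        fun p hp => (hgs hp.1).resolve_right hp.2
      have t1 : D.Test fun p => (χ p : ℂ) * g p := c1.mul hg.1
      have t2 : D.Test fun p => (1 - (χ p : ℂ)) * g p := ((sm_const 1).sub c1.1).mul_test hg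
      have h1 := hadd _ _ t1 t2 (a3 _ t1 ?_) (b3 _ t2 ?_)
      · have h2 : (fun p => (χ p : ℂ) * g p + (1 - (χ p : ℂ)) * g p) = g := by
          funext p; ring
        rwa [h2] at h1
      · refine (tsupport_mul_subset_left.trans ?_)
        rw [part_tsupport_ofReal]
        exact c4
      · intro p hp
        by_contra hpW
        refine notMem_tsupport_iff_eventuallyEq.2 ?_ hp
        filter_upwards [c3 p ⟨tsupport_mul_subset_right hp, hpW⟩] with q hq
        simp only [hq, ofReal_one, sub_self, zero_mul, Pi.zero_apply]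
    · intro x _
      exact ⟨(D.ch x).source, mem_nhdsWithin_of_mem_nhds (D.source_nhds x), (D.ch x).source,
        (D.ch x).open_source, subset_rfl, fun g hg hgs => hloc g x hg hgs⟩
  obtain ⟨V, -, h2, h3⟩ := key
  exact h3 f hf h2

theorem part_integrable_fderiv (hF : ContDiff ℝ ∞ F) (hc : HasCompactSupport F) (v : E n) :
    Integrable fun z => fderiv ℝ F z v :=
  ((hF.continuous_fderiv (by simp)).clm_apply continuous_const).integrable_of_hasCompactSupport
    (hc.fderiv_apply ℝ v)

theorem part_integral_fderiv (hF : ContDiff ℝ ∞ F) (hc : HasCompactSupport F) (v : E n) :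
    ∫ z, fderiv ℝ F z v = 0 := by
  have h := integral_mul_fderiv_eq_neg_fderiv_mul_of_integrable (μ := (volume : Measure (E n)))
    (f := fun _ : E n => (1 : ℂ)) (g := F) (v := v) (by simp)
    (by simpa using part_integrable_fderiv hF hc v)
    (by simpa using hF.continuous.integrable_of_hasCompactSupport hc)
    (fun _ _ => differentiableAt_const _) (fun x _ => hF.differentiable (by simp) x)
  simpa using h

theorem integral_eX (hF : ContDiff ℝ ∞ F) (hc : HasCompactSupport F) : ∫ z, eX ξ F z = 0 := by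
  simp only [eX]
  rw [integral_add (part_integrable_fderiv hF hc _)
    ((part_integrable_fderiv hF hc _).const_mul _), integral_const_mul,
    part_integral_fderiv hF hc, part_integral_fderiv hF hc, mul_zero, add_zero]

theorem integral_dX (hf : D.Test f) : ∫ p, D.dX ξ f p ∂D.μ = 0 := by
  refine test_induction (P := fun f => ∫ p, D.dX ξ f p ∂D.μ = 0) ?_ ?_ ?_ hf
  · simp only [dX_const, integral_zero]
  · intro f g hf hg h1 h2
    simp only [dX_add hf.1 hg.1]
    rw [integral_add (hf.dX ξ).integrable (hg.dX ξ).integrable, h1, h2, add_zero]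
  · intro f y hf hs
    obtain ⟨h1, h2, -⟩ := push_test hf hs
    rw [← integral_push (y := y) fun p hp => dX_of_notMem fun h => hp (hs h), ← eX_push hf hs]
    exact integral_eX h1 h2

/-- Integration by parts. -/
theorem ibp (hf : D.Sm f) (hg : D.Test g) :
    ∫ p, D.dX ξ f p * g p ∂D.μ = -∫ p, f p * D.dX ξ g p ∂D.μ := by
  have h := integral_dX (ξ := ξ) (hf.mul_test hg)
  simp only [dX_mul hf hg.1] at h
  rw [integral_add ((hf.dX ξ).mul_test hg).integrable (hf.mul_test (hg.dX ξ)).integrable] at h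
  exact eq_neg_of_add_eq_zero_left h

end RD

end Vale.Agent.P271A
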